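import Vale.Agent.P277.H371.Fun
import Mathlib.Analysis.SpecialFunctions.SmoothTransition
import Mathlib.MeasureTheory.Integral.IntervalIntegral.FundThmCalculus

/-!
# P277, (WZD): a smooth convex function
-/

open scoped Manifold ContDiff ComplexOrder Topology
open Vale.Agent.P272.K Vale.Agent.P285.H281.FD Set Filter MeasureTheory

noncomputable section

namespace Vale.Agent.P277.H29.W

open Vale.Agent.P277.H19

/-- a smooth convex function which vanishes for `t ≤ 0` -/
def hc (t : ℝ) : ℝ := ∫ s in (0 : ℝ)..t, Real.smoothTransition s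

theorem hc_deriv (t : ℝ) : HasDerivAt hc (Real.smoothTransition t) t :=
  intervalIntegral.integral_hasDerivAt_right
    (Real.smoothTransition.continuous.intervalIntegrable _ _)
    (Real.smoothTransition.continuous.stronglyMeasurableAtFilter _ _)
    Real.smoothTransition.continuous.continuousAt

theorem hc_zero {t : ℝ} (h : t ≤ 0) : hc t = 0 := by
  rw [hc, intervalIntegral.integral_symm, neg_eq_zero]
  refine (intervalIntegral.integral_congr (g := fun _ => (0 : ℝ)) fun s hs => ?_).trans
    intervalIntegral.integral_zero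
  rw [uIcc_of_le h] at hs
  exact Real.smoothTransition.zero_of_nonpos hs.2

theorem hc_mono : Monotone hc :=
  monotone_of_deriv_nonneg (fun t => (hc_deriv t).differentiableAt)
    fun t => by rw [(hc_deriv t).deriv]; exact Real.smoothTransition.nonneg t

theorem hc_nonneg (t : ℝ) : 0 ≤ hc t := by
  rcases le_total t 0 with h | h
  · rw [hc_zero h]
  · rw [← hc_zero le_rfl]
    exact hc_mono h

theorem hc_lower (t : ℝ) : t - 1 ≤ hc t := by
  rcases le_total t 1 with h | h
  · exact (sub_nonpos.2 h).trans (hc_nonneg t)
  · have h1 : hc t = hc 1 + ∫ s in (1 : ℝ)..t, Real.smoothTransition s := by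
      rw [hc, hc, intervalIntegral.integral_add_adjacent_intervals]
      · exact Real.smoothTransition.continuous.intervalIntegrable _ _
      · exact Real.smoothTransition.continuous.intervalIntegrable _ _
    have h2 : ∫ s in (1 : ℝ)..t, Real.smoothTransition s = t - 1 := by
      refine (intervalIntegral.integral_congr (g := fun _ => (1 : ℝ)) fun s hs => ?_).trans ?_
      · rw [uIcc_of_le h] at hs
        exact Real.smoothTransition.one_of_one_le hs.1
      · simp
    rw [h1, h2]
    linarith [hc_nonneg 1]

theorem hc_contDiff : ContDiff ℝ 2 hc := by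
  have h1 : deriv hc = Real.smoothTransition := funext fun t => (hc_deriv t).deriv
  have h2 : ContDiff ℝ (1 + 1) hc := by
    rw [contDiff_succ_iff_deriv]
    refine ⟨fun t => (hc_deriv t).differentiableAt, by simp, ?_⟩
    rw [h1]
    exact Real.smoothTransition.contDiff (n := 1)
  convert h2 using 1
  norm_num

theorem cHess_hc {u : Cm 4 → ℝ} {z : Cm 4} (hu : ContDiffAt ℝ 2 u z) {δ : ℝ} (hδ : 0 ≤ δ)
    {A : Matrix (Fin 4) (Fin 4) ℂ} (hA : A.PosSemidef)
    (h : (cHess u z + (δ : ℂ) • A).PosSemidef) :
    (cHess (fun y => hc (u y)) z + (δ : ℂ) • A).PosSemidef := by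
  have hd : DifferentiableAt ℝ Real.smoothTransition (u z) :=
    (Real.smoothTransition.contDiffAt (n := 1)).differentiableAt (by norm_num)
  have h2 : 0 ≤ deriv Real.smoothTransition (u z) :=
    Real.smoothTransition.monotone.deriv_nonneg
  have h1 : cHess (fun y => hc (u y)) z + (δ : ℂ) • A =
      ((Real.smoothTransition (u z) : ℝ) : ℂ) • (cHess u z + (δ : ℂ) • A) +
      ((((1 - Real.smoothTransition (u z)) * δ : ℝ) : ℂ) • A +
      ((deriv Real.smoothTransition (u z) : ℝ) : ℂ) •
        Matrix.vecMulVec (fun j => dz j (fun y => (u y : ℂ)) z)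
          (star fun j => dz j (fun y => (u y : ℂ)) z)) := by
    ext j k
    rw [Matrix.add_apply, C2.cHess_comp (Eventually.of_forall fun s => hc_deriv s)
      hd.hasDerivAt hu j k]
    simp only [Matrix.add_apply, Matrix.smul_apply, smul_eq_mul, Matrix.vecMulVec_apply,
      Pi.star_apply, RCLike.star_def]
    have h3 : (starRingEnd ℂ) (dz k (fun y => (u y : ℂ)) z) = dzb k (fun y => (u y : ℂ)) z :=
      (C2.dzb_real k (hu.differentiableAt (by norm_num))).symm
    rw [h3]
    push_cast
    ring
  rw [h1]
  refine (posSemidef_real_smul h (Real.smoothTransition.nonneg _)).add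
    ((posSemidef_real_smul hA ?_).add (posSemidef_real_smul ?_ h2))
  · exact mul_nonneg (sub_nonneg.2 (Real.smoothTransition.le_one _)) hδ
  · exact Matrix.posSemidef_vecMulVec_self_star _

end Vale.Agent.P277.H29.W
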