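import Vale.Agent.P277.H29.W.Wt
import Vale.Agent.P277.H615.R.HasOrd

/-!
# P277, (WZD): the logarithmic order along a wedge
-/

open scoped Manifold ContDiff ComplexOrder Topology
open Vale.Agent.P272.K Vale.Agent.P285.H281.FD Set Filter

noncomputable section

namespace Vale.Agent.P277.H29.W

open Vale.Agent.P277 Vale.Agent.P277.H19 Vale.Agent.P277.H615

/-- `g - κ log |w 0|` is bounded near `w₂` -/
def LO (D : Set (Cm 4)) (w₂ : Cm 4) (g : Cm 4 → ℝ) (κ : ℝ) : Prop :=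
  ∃ C : ℝ, ∀ᶠ w in 𝓝 w₂, w ∈ D → w 0 ≠ 0 → |g w - κ * Real.log ‖w 0‖| ≤ C

variable {D : Set (Cm 4)} {w₂ : Cm 4} {g g' : Cm 4 → ℝ} {κ κ' : ℝ}

theorem LO.add (h : LO D w₂ g κ) (h' : LO D w₂ g' κ') : LO D w₂ (fun w => g w + g' w) (κ + κ') := by
  obtain ⟨C, hC⟩ := h
  obtain ⟨C', hC'⟩ := h'
  refine ⟨C + C', ?_⟩
  filter_upwards [hC, hC'] with w h1 h2 hD hw
  have h3 := h1 hD hw
  have h4 := h2 hD hw
  rw [abs_le] at h3 h4 ⊢
  constructor <;> nlinarith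

theorem LO.const_mul (h : LO D w₂ g κ) (c : ℝ) : LO D w₂ (fun w => c * g w) (c * κ) := by
  obtain ⟨C, hC⟩ := h
  refine ⟨|c| * C, ?_⟩
  filter_upwards [hC] with w h1 hD hw
  have h2 : c * g w - c * κ * Real.log ‖w 0‖ = c * (g w - κ * Real.log ‖w 0‖) := by ring
  rw [h2, abs_mul]
  exact mul_le_mul_of_nonneg_left (h1 hD hw) (abs_nonneg c)

theorem LO.sub (h : LO D w₂ g κ) (h' : LO D w₂ g' κ') : LO D w₂ (fun w => g w - g' w) (κ - κ') := by
  have h1 := h.add (h'.const_mul (-1))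
  have h2 : (fun w => g w + -1 * g' w) = fun w => g w - g' w := by funext w; ring
  have h3 : κ + -1 * κ' = κ - κ' := by ring
  rwa [h2, h3] at h1

theorem LO.sum {ι : Type} (s : Finset ι) {f : ι → Cm 4 → ℝ} {c k : ι → ℝ}
    (h : ∀ i ∈ s, LO D w₂ (f i) (k i)) :
    LO D w₂ (fun w => ∑ i ∈ s, c i * f i w) (∑ i ∈ s, c i * k i) := by
  classical
  induction s using Finset.induction_on with
  | empty => exact ⟨0, Eventually.of_forall fun w _ _ => by simp⟩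
  | insert a s ha ih =>
    simp only [Finset.sum_insert ha]
    exact ((h a (Finset.mem_insert_self a s)).const_mul (c a)).add
      (ih fun i hi => h i (Finset.mem_insert_of_mem hi))

theorem LO.of_cont (h : ContinuousAt g w₂) : LO D w₂ g 0 := by
  refine ⟨|g w₂| + 1, ?_⟩
  filter_upwards [h.abs.eventually (gt_mem_nhds (lt_add_one |g w₂|))] with w hw _ _
  simpa using hw.le

theorem LO.congr (h : LO D w₂ g κ) (h' : ∀ᶠ w in 𝓝 w₂, w ∈ D → w 0 ≠ 0 → g' w = g w) :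
    LO D w₂ g' κ := by
  obtain ⟨C, hC⟩ := h
  refine ⟨C, ?_⟩
  filter_upwards [hC, h'] with w h1 h2 hD hw
  rw [h2 hD hw]
  exact h1 hD hw

/-- the logarithm of a function which is a unit up to a power of `w 0` -/
theorem LO.of_unit {τ Φ : Cm 4 → ℂ} {K : ℕ} {ν : ℤ} {q : ℚ} (hK : 1 ≤ K) (hν : (ν : ℚ) = q * K)
    (hΦ : AnalyticAt ℂ Φ w₂) (hΦ0 : Φ w₂ ≠ 0)
    (h : ∀ᶠ w in 𝓝 w₂, w ∈ D → w 0 ≠ 0 → τ w ^ K = w 0 ^ ν * Φ w) :
    LO D w₂ (fun w => lg (τ w)) (2 * q) := by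
  have hK0 : (K : ℝ) ≠ 0 := by positivity
  have h1 : LO D w₂ (fun w => lg (Φ w)) 0 := by
    refine LO.of_cont ?_
    have h2 : ContinuousAt (fun w => ‖Φ w‖ ^ 2) w₂ := hΦ.continuousAt.norm.pow 2
    exact h2.log (pow_ne_zero _ (norm_ne_zero_iff.2 hΦ0))
  have h3 : LO D w₂ (fun w => lg (w 0 ^ ν)) (2 * ν) := by
    refine ⟨0, Eventually.of_forall fun w _ hw => ?_⟩
    have h4 : lg (w 0 ^ ν) = 2 * ν * Real.log ‖w 0‖ := by
      rw [lg_zpow, lg, Real.log_pow]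
      push_cast
      ring
    show |lg (w 0 ^ ν) - 2 * ν * Real.log ‖w 0‖| ≤ 0
    rw [h4, sub_self, abs_zero]
  have h5 := (h3.add h1).const_mul (1 / K)
  have h6 : (1 / (K : ℝ)) * (2 * ν + 0) = 2 * q := by
    have h7 : (ν : ℝ) = (q : ℝ) * K := by exact_mod_cast hν
    rw [h7]
    field_simp
    ring
  rw [h6] at h5
  refine h5.congr ?_
  filter_upwards [h, hΦ.continuousAt.eventually_ne hΦ0] with w h7 h8 hD hw
  have h9 := congrArg lg (h7 hD hw)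
  rw [lg_pow, lg_mul (zpow_ne_zero _ hw) h8] at h9
  rw [← h9]
  field_simp

end Vale.Agent.P277.H29.W
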