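import Vale.Agent.P277.H29.W.Phi
import Vale.Agent.P277.H29.W.LO
import Vale.Agent.P277.H884.W.OrdT
import Vale.Agent.P277.H884.W.CoreReg
import Vale.Agent.P277.H884.T.T6HF
import Vale.Agent.P277.H29.E.T8

/-!
# P277, (WZD): the centres are contained in the support of `N`
-/

set_option maxSynthPendingDepth 3
set_option linter.unusedSectionVars false

open scoped Manifold ContDiff Topology
open Vale.Agent.P272.K Vale.Agent.P285.H281.FD Vale.Agent.P267.H175 Set Filter Metric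

noncomputable section

namespace Vale.Agent.P277.H29.W

open Vale.Agent.P277 Vale.Agent.P277.T2 Vale.Agent.P277.T3 Vale.Agent.P277.H335
open Vale.Agent.P277.H615 Vale.Agent.P277.H335.RR Vale.Agent.P277.H335.KK

/-- the logarithmic order of the weight -/
theorem lo_ph {Y : Type} [TopologicalSpace Y] [ChartedSpace (Cm 4) Y] {X₀ X : CSp} {K q A : ℕ}
    {v₀ : Y → X₀.pt} {L₀ : Fin K → Bd X₀.pt} {L : Fin K → Bd X.pt} {R : Fin K → Bd Y}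
    {Q₀ Q : Fin K → ℕ} {T₀ : ∀ e, (L₀ e).ι → (R e).ι → Y → ℂ}
    {T : ∀ e, (L e).ι → (R e).ι → Y → ℂ} {N : Fin q → Bd Y} {x : Fin q → ℝ}
    {nn : Fin A → Fin K → ℤ} {ν : Fin A → Fin q → ℤ}
    {u : Fin A → ℝ} {θ : Fin A → ((∀ e, (L₀ e).ι) × ∀ b, (N b).ι) → Y → ℂ}
    {w : ∀ b, (N b).ι → Y → ℝ} {ρ : Fin K → ℝ}
    (hθ : ∀ l, IsSec 4 ((Bd.lin (fun e => Bd.pull v₀ (L₀ e)) (nn l)).mul (Bd.lin N (ν l))) (θ l))
    (hθ0 : ∀ l y, Vale.Agent.P285.H281.FD.NZ ((Bd.lin (fun e => Bd.pull v₀ (L₀ e)) (nn l)).mul (Bd.lin N (ν l))) (θ l) y)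
    {D : Set (Cm 4)} {γ : Cm 4 → Y} {w₂ : Cm 4} (hγ : ContinuousAt γ w₂)
    {i : ∀ e, (L e).ι} {a : ∀ e, (L₀ e).ι} {β : ∀ b, (N b).ι} {n : ∀ e, (R e).ι}
    (ha : ∀ e, v₀ (γ w₂) ∈ (L₀ e).U (a e)) (hβ : ∀ b, γ w₂ ∈ (N b).U (β b))
    (hw : ∀ b, ContinuousAt (w b (β b)) (γ w₂)) {q₀ q₁ : Fin K → ℚ}
    (h₀ : ∀ e, LO D w₂ (fun w => lg (T₀ e (a e) (n e) (γ w))) (2 * q₀ e))
    (h₁ : ∀ e, LO D w₂ (fun w => lg (T e (i e) (n e) (γ w))) (2 * q₁ e)) :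
    LO D w₂ (fun z => Ph x w u θ ρ Q₀ Q T₀ T i a β n (γ z))
      ((∑ e, ρ e / Q₀ e * (2 * q₀ e)) - ∑ e, ρ e / Q e * (2 * q₁ e)) := by
  have h1 := LO.sum (D := D) (w₂ := w₂) (Finset.univ : Finset (Fin q))
    (f := fun b z => w b (β b) (γ z)) (c := x) (k := fun _ => 0)
    fun b _ => LO.of_cont ((hw b).comp hγ)
  have h2 := LO.sum (D := D) (w₂ := w₂) (Finset.univ : Finset (Fin A))
    (f := fun l z => lg (θ l (a, β) (γ z))) (c := u) (k := fun _ => 0) fun l _ => LO.of_cont (by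
      have h3 : ContinuousAt (θ l (a, β)) (γ w₂) := cont_of_chart (H19.at_chartAt _)
        ((hθ l).holo (a, β) _ (γ w₂) (H19.at_chartAt _) ⟨ha, hβ⟩).continuousAt
      have h4 : θ l (a, β) (γ w₂) ≠ 0 := hθ0 l (γ w₂) (a, β) ⟨ha, hβ⟩
      have h5 : ContinuousAt (fun y => ‖θ l (a, β) y‖ ^ 2) (γ w₂) := h3.norm.pow 2
      have h6 : ContinuousAt (fun y => lg (θ l (a, β) y)) (γ w₂) :=
        h5.log (pow_ne_zero _ (norm_ne_zero_iff.2 h4))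
      exact h6.comp hγ)
  have h3 := LO.sum (D := D) (w₂ := w₂) (Finset.univ : Finset (Fin K))
    (f := fun e z => lg (T₀ e (a e) (n e) (γ z))) (c := fun e => ρ e / Q₀ e)
    (k := fun e => 2 * (q₀ e : ℝ)) fun e _ => h₀ e
  have h4 := LO.sum (D := D) (w₂ := w₂) (Finset.univ : Finset (Fin K))
    (f := fun e z => lg (T e (i e) (n e) (γ z))) (c := fun e => ρ e / Q e)
    (k := fun e => 2 * (q₁ e : ℝ)) fun e _ => h₁ e
  have h5 := (h1.add h2).add (h3.sub h4)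
  simp only [mul_zero, Finset.sum_const_zero, zero_add, add_zero] at h5
  exact h5

section

variable {Y : Type} [TopologicalSpace Y] [T2Space Y] [CompactSpace Y]
    [ChartedSpace (Cm 4) Y] [IsManifold 𝓘(ℂ, Cm 4) ω Y]
    {χ : Chart 4 Y → Cm 4 → Matrix (Fin 4) (Fin 4) ℂ} {k s : ℕ}
    {M : Fin (k + s) → Bd Y} {m : Fin (k + s) → ℕ} {ρ : Fin (k + s) → ℝ} {H : Fin s → Type}
    [∀ i, TopologicalSpace (H i)] [∀ i, T2Space (H i)] [∀ i, CompactSpace (H i)]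
    [∀ i, ConnectedSpace (H i)] [∀ i, ChartedSpace (Cm 3) (H i)]
    [∀ i, IsManifold 𝓘(ℂ, Cm 3) ω (H i)] {ι : ∀ i, H i → Y}
    {sg : ∀ i : Fin s, (M (Fin.natAdd k i)).ι → Y → ℂ} {W : CSp} {X Z : ℕ → CSp} {r : ℕ}
    {v : Y → W.pt} {p : W.pt → (X 0).pt} {P : Bd W.pt} {G : Fin r → Set Y}
    {f : ∀ j, (X j).pt → (Z j).pt} {f' : ∀ j, (X (j + 1)).pt → (Z j).pt}
    {A : ∀ j, Set (Z j).pt} {L : ∀ j, Fin (k + s) → Bd (X j).pt} {c : ℕ → Fin (k + s) → ℕ}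
    {σ : ∀ j, ∀ i : Fin s, (L j (Fin.natAdd k i)).ι → (X j).pt → ℂ}
    {n : Fin (k + s) → Fin r → ℤ} {t : ∀ e, (L 0 e).ι →
      ((((Bd.can 4 Y).pow (m e)).mul (M e)).pow (c 0 e)).ι → Y → ℂ}

/-- the contradiction for a wedge which is not centred in the support of `N` -/
theorem wz_false (h : IsPG χ M m ρ ι sg v p P G f f' A L c σ n t) {E : Set Y}
    (hE : IsWZ χ (fun y => p (v y)) (L 0) (c 0) ρ E) (j : ℕ) {ξ : Cm 4 → (X (j + 1)).pt}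
    {r' : ℝ} (hinj : InjOn ξ (ball 0 r'))
    (hop : ∀ W ⊆ ball (0 : Cm 4) r', IsOpen W → IsOpen (ξ '' W))
    (hξ : ∀ z ∈ ball (0 : Cm 4) r', ContinuousAt ξ z ∧
      ∀ f : (X (j + 1)).pt → ℂ, (X (j + 1)).Hol f (ξ z) ↔ AnalyticAt ℂ (f ∘ ξ) z)
    (hS : ∀ z ∈ ball (0 : Cm 4) r', z 0 = 0 → z 1 = 0 → f' j (ξ z) ∈ Amin (f j))
    {V : Set (Cm 4)} (hV : IsOpen V) {w₀ : Cm 4} (hw₀ : w₀ ∈ V) (h0 : w₀ 0 = 0) {γ : Cm 4 → Y}
    (hγ : ∀ w ∈ V, bl w ∈ ball (0 : Cm 4) r' ∧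
      (∀ y, Cor (⋃ l, G l) (fun y => p (v y)) f f' (j + 1) y (ξ (bl w)) → γ w = y) ∧
      ContinuousAt γ w) (hwE : γ w₀ ∉ E) : False := by
  classical
  have hsum : ∑ e : Fin k, ρ (Fin.castAdd s e) * m (Fin.castAdd s e) = 1 := by
    have h1 := h.sum
    rw [Fin.sum_univ_add] at h1
    simpa only [h.m0, Nat.cast_zero, mul_zero, Finset.sum_const_zero, add_zero] using h1
  have hk : 1 ≤ k := by
    rcases Nat.eq_zero_or_pos k with rfl | h1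
    · simp at hsum
    · exact h1
  obtain ⟨q, N, I, τ, x, hN, hx, hnef, hτ, hEτ, a₁, nn, ν, u, hθ, hρ, hxν⟩ := hE
  choose θ hθ hθ0 using hθ
  have hEc : IsClosed E := isClosed_wz hN hτ hEτ
  have hn' : ∀ l, 0 ≤ ∑ e, ρ e * n e l / c 0 e ∨ G l ⊆ (univ : Set Y) := fun l =>
    Or.inr (subset_univ _)
  obtain ⟨O, v', P', Q', T, hT⟩ := H884.G.exists_twSeqG H884.stL0 (by omega) h.lb h.res h.c1 h.cmp
    h.corr hn' h.flip
  have hTw := hT.tw j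
  have hch := exists_chainK H884.stL0 (by omega) (h.flip 0).flip.normal h.lb h.res h.cmp hT j
  have hR : ∀ e, CtBd (((Bd.can 4 Y).pow (m e)).mul (M e)) := fun e => ctBd (h.lb e) (m e)
  have hvc : Continuous fun y => p (v y) := h.res.cont.comp (continuousOn_univ.1 h.res.emb.cont)
  have hbl : Continuous bl := H19.continuous_bl
  -- the wedge
  set φ' : Cm 4 → (X (j + 1)).pt := fun w => ξ (bl w) with hφ'
  have hφc : ∀ w ∈ V, ContinuousAt φ' w := fun w hw =>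
    ContinuousAt.comp (g := ξ) (hξ _ (hγ w hw).1).1 hbl.continuousAt
  have hφh : ∀ w ∈ V, HolAt (X (j + 1)) φ' w := by
    intro w hw
    refine ⟨hφc w hw, fun g hg => ?_⟩
    have h1 := ((hξ _ (hγ w hw).1).2 g).1 hg
    exact AnalyticAt.comp (g := g ∘ ξ) (f := bl) h1 (H19.analyticAt_bl w)
  have hcl : V ⊆ closure {w | w ∈ V ∧ φ' w ∈ v' (j + 1) '' O (j + 1)} := by
    intro w hw
    rw [mem_closure_iff_nhds]
    intro U hU
    obtain ⟨U', hU'U, hU'o, hwU'⟩ := _root_.mem_nhds_iff.1 (inter_mem hU (hV.mem_nhds hw))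
    set V' : Set (Cm 4) := U' ∩ {w | w 0 ≠ 0} with hV'
    have hVo : IsOpen V' := hU'o.inter
      (isOpen_ne_fun (continuous_apply (0 : Fin 4)) continuous_const)
    have hVb : bl '' V' ⊆ ball 0 r' := by
      rintro _ ⟨w', hw', rfl⟩
      exact (hγ w' (hU'U hw'.1).2).1
    have hVn : V'.Nonempty := by
      obtain ⟨w', h7, h8⟩ := H19.exists_ne_zero (hU'o.mem_nhds hwU')
      exact ⟨w', h7, h8⟩
    have h7 : IsOpen (ξ '' (bl '' V')) := hop _ hVb (H19.isOpen_image_bl hVo fun w hw => hw.2)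
    obtain ⟨_, ⟨_, ⟨w', hw', rfl⟩, rfl⟩, y, hy⟩ :=
      (H884.T.cor_dense h j).1.inter_open_nonempty _ h7 ((hVn.image bl).image ξ)
    refine ⟨w', (hU'U hw'.1).1, (hU'U hw'.1).2, y, ?_⟩
    exact (cor_iff' hT (j + 1) _ _).1 hy
  choose i hi using fun e => (hTw.lb e).cover (φ' w₀)
  have hev : ∀ᶠ w in 𝓝 w₀, w ∈ V ∧ (∀ e, φ' w ∈ (L (j + 1) e).U (i e)) ∧ γ w ∉ E := by
    refine Eventually.and (hV.mem_nhds hw₀) (Eventually.and ?_ ?_)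
    · rw [eventually_all]
      exact fun e => (hφc w₀ hw₀).eventually_mem (((hTw.lb e).isOpen (i e)).mem_nhds (hi e))
    · exact (hγ w₀ hw₀).2.2.eventually_mem (hEc.isOpen_compl.mem_nhds hwE)
  obtain ⟨V₀, hV₀, hV₀o, hw₀V⟩ := _root_.mem_nhds_iff.1 hev
  have hV₀V : V₀ ⊆ V := fun w hw => (hV₀ hw).1
  have hcl₀ := subset_closure_of_open hV₀o hV₀V hcl
  obtain ⟨w₁, hw₁, hw₁0, W₁, γ₀, ch, cc, qq, g1, g2, g3, g4, g5, g6, g7, b₀, g8, -, g9⟩ :=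
    hch V₀ w₀ φ' i hV₀o hw₀V h0 (fun w hw => hφh w (hV₀V hw)) hcl₀ fun w hw => (hV₀ hw).2.1
  have hlt := g9 fun w hw hw0 => hS _ (hγ w (hV₀V hw)).1 (by
    show w 0 = 0
    exact hw0) (by
    show w 0 * w 1 = 0
    rw [hw0, zero_mul])
  have hcl₁ := subset_closure_of_open g1 (g3.trans hV₀V) hcl
  -- the two lifts agree
  have hγ₀ : γ₀ w₁ = γ w₁ := by
    refine tendsto_nhds_unique_of_frequently_eq (g4 w₁ g2).1.tendsto
      (hγ w₁ (hV₀V hw₁)).2.2.tendsto ?_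
    refine (mem_closure_iff_frequently.1 (hcl₁ g2)).mono fun w' hw' => ?_
    have h1 := g5 w' hw'.1 hw'.2
    exact ((hγ w' (hV₀V (g3 hw'.1))).2.1 _ ((cor_iff' hT (j + 1) _ _).2 ⟨h1, g6 w' hw'.1 h1⟩)).symm
  have hwE₁ : γ₀ w₁ ∉ E := by rw [hγ₀]; exact (hV₀ hw₁).2.2
  choose a ha using fun e => (hT.tw0.lb e).cover (p (v (γ₀ w₁)))
  choose β hβ using fun b => (hN b).cover (γ₀ w₁)
  obtain ⟨μ, hb, hot⟩ := H884.W.ord_t h.cmp hw₁0 (g4 w₁ g2).1 (g4 w₁ g2).2.1 (g4 w₁ g2).2.2.1 g8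
    (a := a) ha (m := cc) (g4 w₁ g2).2.2.2
  set D : Set (Cm 4) := {w | γ₀ w ∈ O (j + 1)} with hD
  have hsub0 : O (j + 1) ⊆ O 0 := by
    rw [hT.O0]
    exact (hTw.tw ⟨0, by omega⟩).sub
  have hord : ∀ z : Fin (k + s) ⊕ Fin (k + s), HasOrd D w₁
      (Sum.elim (fun e w => T (j + 1) e (i e) (cc e) (γ₀ w)) (fun e w => t e (a e) (cc e) (γ₀ w)) z)
      (Sum.elim qq (fun e => ((∑ l, n e l * μ l : ℤ) : ℚ)) z) := by
    rintro (e | e)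
    · exact g7 e
    · obtain ⟨K, ν', A', B', m1, m2, m3, m4, m5, m6, m7⟩ := hot e
      refine ⟨K, ν', A', B', m1, m2, m3, m4, m5, m6, m7.mono fun w hw hwD => hw ?_⟩
      have h1 := hsub0 hwD
      rw [hT.O0] at h1
      exact h1
  have hev₁ : ∀ᶠ w in 𝓝 w₁, w ∈ W₁ ∧ γ₀ w ∉ E ∧ (∀ e, p (v (γ₀ w)) ∈ (L 0 e).U (a e)) ∧
      ∀ b, γ₀ w ∈ (N b).U (β b) := by
    refine Eventually.and (g1.mem_nhds g2) (Eventually.and ?_ (Eventually.and ?_ ?_))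
    · exact (g4 w₁ g2).1.eventually_mem (hEc.isOpen_compl.mem_nhds hwE₁)
    · rw [eventually_all]
      intro e
      exact (hvc.continuousAt.comp (g4 w₁ g2).1).eventually_mem
        (((hT.tw0.lb e).isOpen (a e)).mem_nhds (ha e))
    · rw [eventually_all]
      exact fun b => (g4 w₁ g2).1.eventually_mem (((hN b).isOpen _).mem_nhds (hβ b))
  obtain ⟨w₂, ⟨hw₂0, hun⟩, hw₂W, hw₂E, hw₂a, hw₂β⟩ :=
    ((HasOrd.exists_unit hw₁0 hord).and_eventually hev₁).exists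
  have hγ₂ : ContinuousAt γ₀ w₂ := (g4 w₂ hw₂W).1
  have hw₂V : w₂ ∈ V := hV₀V (g3 hw₂W)
  -- the orders
  have hLO : ∀ z : Fin (k + s) ⊕ Fin (k + s), LO D w₂ (fun w => lg
      (Sum.elim (fun e w => T (j + 1) e (i e) (cc e) (γ₀ w)) (fun e w => t e (a e) (cc e) (γ₀ w)) z
        w)) (2 * ((Sum.elim qq (fun e => ((∑ l, n e l * μ l : ℤ) : ℚ)) z : ℚ) : ℝ)) := by
    intro z
    obtain ⟨K, ν', Φ, m1, m2, m3, m4, m5⟩ := hun z
    exact LO.of_unit m1 m2 m3 m4 m5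
  -- the frames near `ξ (bl w₂)`
  obtain ⟨r'', hr'', hball⟩ : ∃ r'' > 0, ∀ z ∈ ball (bl w₂) r'', ∀ e,
      ξ z ∈ (L (j + 1) e).U (i e) := by
    have h1 : ∀ᶠ z in 𝓝 (bl w₂), ∀ e, ξ z ∈ (L (j + 1) e).U (i e) := by
      rw [eventually_all]
      exact fun e => (hξ _ (hγ w₂ hw₂V).1).1.eventually_mem
        (((hTw.lb e).isOpen (i e)).mem_nhds ((hV₀ (g3 hw₂W)).2.1 e))
    obtain ⟨r'', h2, h3⟩ := Metric.eventually_nhds_iff_ball.1 h1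
    exact ⟨r'', h2, h3⟩
  have hQ0 : ∀ e, Q' 0 e = c 0 e := fun e => by rw [hT.Q0]
  have hκ : 0 < 2 * ((∑ e, ρ e / Q' (j + 1) e * (qq e : ℝ)) - b₀) := by linarith
  refine H884.W.core_reg' h.kahler (hTw.tw ⟨0, by omega⟩).emb (hTw.tw ⟨0, by omega⟩).dim hinj hop
    hξ hw₂0 (hγ w₂ hw₂V).1 hr'' hγ₂ (g4 w₂ hw₂W).2.1 (g4 w₂ hw₂W).2.2.1 ?_ hκ fun δ hδ => ?_
  · filter_upwards [g1.mem_nhds hw₂W] with w hw hwO
    have h1 := g5 w hw hwO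
    exact ⟨h1, g6 w hw h1⟩
  obtain ⟨φ, wt, hφ1, hwt, hφ2⟩ := exists_phi h.kahler (v₀ := fun y => p (v y)) (v := v' (j + 1))
    (R := fun e => ((Bd.can 4 Y).pow (m e)).mul (M e)) (c := c 0) (P₀ := P' 0) (Q₀ := Q' 0)
    (P := P' (j + 1)) (Q := Q' (j + 1)) (O₀ := O 0) (O := O (j + 1)) (T₀ := T 0)
    (T := T (j + 1)) (fun e => hT.tw0.lb e) (fun e => hTw.lb e) (fun e => (hR e).isOpen)
    (fun e => (hR e).cover) (fun e => (hR e).ne_zero)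
    (fun e => by
      have h1 := (hT.tw0.tw e).iso
      rw [hT.v0] at h1
      exact h1)
    (fun e => (hTw.tw e).iso) (fun e => h.c1 0 e) (fun e => hT.tw0.mult e)
    (fun e => (hT.tw0.tw e).hQ) (fun e => (hTw.tw e).hQ) hvc (hTw.tw ⟨0, by omega⟩).emb.isOpen
    hsub0 (hTw.tw ⟨0, by omega⟩).emb.cont hN hx hnef hτ hEτ hθ hθ0 hρ hxν i hδ
  refine ⟨φ, fun y hy hyv => hφ1 y hy fun e => ?_, ?_⟩
  · obtain ⟨z, hz, hzy⟩ := hyv
    rw [← hzy]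
    exact hball z hz e
  · obtain ⟨C, hC⟩ := lo_ph (x := x) (u := u) (ρ := ρ) (Q₀ := Q' 0) (Q := Q' (j + 1)) (T₀ := T 0)
      (T := T (j + 1)) (w := wt) (D := D) (R := fun e => ((Bd.can 4 Y).pow (m e)).mul (M e))
      (i := i) (n := cc) hθ hθ0 hγ₂ hw₂a hw₂β
      (fun b => hwt b _ hw₂E _ (hw₂β b)) (q₀ := fun e => ((∑ l, n e l * μ l : ℤ) : ℚ)) (q₁ := qq)
      (fun e => by
        have h1 := hLO (Sum.inr e)
        rw [hT.T0]
        exact h1) fun e => hLO (Sum.inl e)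
    refine ⟨C + 1, ?_⟩
    have hev₂ : ∀ᶠ w in 𝓝 w₂, w ∈ W₁ ∧ γ₀ w ∉ E ∧ (∀ e, p (v (γ₀ w)) ∈ (L 0 e).U (a e)) ∧
        ∀ b, γ₀ w ∈ (N b).U (β b) := by
      refine Eventually.and (g1.mem_nhds hw₂W) (Eventually.and ?_ (Eventually.and ?_ ?_))
      · exact hγ₂.eventually_mem (hEc.isOpen_compl.mem_nhds hw₂E)
      · rw [eventually_all]
        intro e
        exact (hvc.continuousAt.comp hγ₂).eventually_mem
          (((hT.tw0.lb e).isOpen (a e)).mem_nhds (hw₂a e))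
      · rw [eventually_all]
        exact fun b => hγ₂.eventually_mem (((hN b).isOpen _).mem_nhds (hw₂β b))
    filter_upwards [hC, hev₂] with w h1 ⟨h2, h3, h4, h5⟩ hw0 hwO
    have h6 : v' (j + 1) (γ₀ w) = φ' w := g6 w h2 hwO
    have h7 := hφ2 (γ₀ w) hwO h3 (fun e => by rw [h6]; exact (hV₀ (g3 h2)).2.1 e) a β cc h4 h5
      (g4 w h2).2.2.2
    have h8 := h1 hwO hw0
    have h9 : (∑ e, ρ e / Q' 0 e * (2 * (((∑ l, n e l * μ l : ℤ) : ℚ) : ℝ))) = 2 * b₀ := by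
      rw [hb, Finset.mul_sum]
      have h10 : ∀ e, ρ e / Q' 0 e * (2 * (((∑ l, n e l * μ l : ℤ) : ℚ) : ℝ)) =
          ∑ l, 2 * (ρ e * n e l / c 0 e * μ l) := by
        intro e
        rw [hQ0]
        push_cast
        rw [Finset.mul_sum, Finset.mul_sum]
        exact Finset.sum_congr rfl fun l _ => by ring
      rw [Finset.sum_congr rfl fun e _ => h10 e, Finset.sum_comm]
      refine Finset.sum_congr rfl fun l _ => ?_
      rw [Finset.sum_mul, Finset.mul_sum]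
    have h11 : (∑ e, ρ e / Q' (j + 1) e * (2 * (qq e : ℝ))) =
        2 * ∑ e, ρ e / Q' (j + 1) e * (qq e : ℝ) := by
      rw [Finset.mul_sum]
      exact Finset.sum_congr rfl fun e _ => by ring
    rw [h9, h11, abs_le] at h8
    rw [h7]
    refine le_trans ?_ (hc_lower _)
    rw [one_div, Real.log_inv]
    have h12 := h8.1
    nlinarith

/-- the centres are contained in the support of `N` -/
theorem badPt_wz (h : IsPG χ M m ρ ι sg v p P G f f' A L c σ n t) {E : Set Y}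
    (hE : IsWZ χ (fun y => p (v y)) (L 0) (c 0) ρ E) (j : ℕ) {Bad : Set Y}
    {x : (X (j + 1)).pt}
    (hx : BadPt {x | f' j x ∈ Amin (f j)} (Cor (⋃ l, G l) (fun y => p (v y)) f f' (j + 1)) Bad x) :
    BadPt {x | f' j x ∈ Amin (f j)} (Cor (⋃ l, G l) (fun y => p (v y)) f f' (j + 1))
      (Bad ∩ E) x := by
  obtain ⟨ξ, r', V, w₀, γ, ch, hr, hinj, hop, hξ, hS, hV, hw₀, h0, hx, hγ⟩ := hx
  refine ⟨ξ, r', V, w₀, γ, ch, hr, hinj, hop, hξ, hS, hV, hw₀, h0, hx, fun w hw => ?_⟩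
  obtain ⟨h1, h2, h3, h4, h5, h6⟩ := hγ w hw
  refine ⟨h1, h2, h3, h4, h5, fun hw0 => ⟨⟨(h6 hw0).1, ?_⟩, (h6 hw0).2⟩⟩
  by_contra hwE
  exact wz_false h hE j hinj hop hξ hS hV hw hw0
    (fun w hw => ⟨(hγ w hw).1, (hγ w hw).2.1, (hγ w hw).2.2.1⟩) hwE

end

end Vale.Agent.P277.H29.W
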