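import Vale.Agent.P277.Stmts16
import Vale.Agent.P277.H371.C.WrapF

/-!
# P277, (G): the sections of the boundary divisors on all the spaces `X j`
-/

open scoped Manifold ContDiff Topology
open Vale.Agent.P272.K Vale.Agent.P285.H281.FD Vale.Agent.P267.H175 Set Filter Metric

noncomputable section

namespace Vale.Agent.P277.H29.W

open Vale.Agent.P277 Vale.Agent.P277.T2 Vale.Agent.P277.T3 Vale.Agent.P277.H615
open Vale.Agent.P277.H371.C

/-- The sections of the boundary divisors on all the spaces `X j`, after passing to powers. -/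
theorem wrap_core' {Y : Type} [TopologicalSpace Y] [T2Space Y] [CompactSpace Y]
    [ChartedSpace (Cm 4) Y] [IsManifold 𝓘(ℂ, Cm 4) ω Y] {k s : ℕ} {M : Fin (k + s) → Bd Y}
    (hM : ∀ e, IsLB 4 (M e)) {m : Fin (k + s) → ℕ} (hm0 : ∀ i : Fin s, m (Fin.natAdd k i) = 0)
    {ρ : Fin (k + s) → ℝ} {H : Fin s → Type}
    [∀ i, TopologicalSpace (H i)] [∀ i, T2Space (H i)] [∀ i, CompactSpace (H i)]
    [∀ i, ConnectedSpace (H i)] [∀ i, ChartedSpace (Cm 3) (H i)]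
    [∀ i, IsManifold 𝓘(ℂ, Cm 3) ω (H i)] {ι : ∀ i, H i → Y}
    {sg : ∀ i : Fin s, (M (Fin.natAdd k i)).ι → Y → ℂ}
    (hbd : ∀ i, IsBd (ι i) (M (Fin.natAdd k i)) (sg i))
    {W : CSp} {X Z : ℕ → CSp} {r : ℕ} {v : Y → W.pt} {p : W.pt → (X 0).pt} {P : Bd W.pt}
    {G : Fin r → Set Y} (hres : T2.IsRes v p P G)
    {f : ∀ j, (X j).pt → (Z j).pt} {f' : ∀ j, (X (j + 1)).pt → (Z j).pt}
    {A : ∀ j, Set (Z j).pt} {L : ∀ j, Fin (k + s) → Bd (X j).pt} {c : ℕ → Fin (k + s) → ℕ}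
    (hc : ∀ j e, 1 ≤ c j e) {n : Fin (k + s) → Fin r → ℤ}
    (hn : ∃ t, T2.IsCmpV (fun y => p (v y)) (L 0)
      (fun e => (((Bd.can 4 Y).pow (m e)).mul (M e)).pow (c 0 e)) G n t)
    (hflip : ∀ j, IsFlipR (X j) (Z j) (X (j + 1)) (f j) (f' j) (A j) (L j) (L (j + 1)) (c j)
      (c (j + 1)) ρ) :
    ∃ (L' : ∀ j, Fin (k + s) → Bd (X j).pt) (c' : ℕ → Fin (k + s) → ℕ)
      (σ : ∀ j, ∀ i : Fin s, (L' j (Fin.natAdd k i)).ι → (X j).pt → ℂ)
      (t : ∀ e, (L' 0 e).ι → ((((Bd.can 4 Y).pow (m e)).mul (M e)).pow (c' 0 e)).ι → Y → ℂ),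
      (∀ j e, 1 ≤ c' j e) ∧
      T2.IsCmpV (fun y => p (v y)) (L' 0)
        (fun e => (((Bd.can 4 Y).pow (m e)).mul (M e)).pow (c' 0 e)) G n t ∧
      (∀ i a ch b y, y ∉ ⋃ l, G l → p (v y) ∈ (L' 0 (Fin.natAdd k i)).U a → At ch y →
        y ∈ (M (Fin.natAdd k i)).U b →
          σ 0 i a (p (v y)) * t (Fin.natAdd k i) a (ch, b) y = sg i b y ^ c' 0 (Fin.natAdd k i)) ∧
      (∀ e, c' 0 e = c 0 e) ∧ (∀ e, L' 0 e = L 0 e) ∧
      ∀ j, IsFlipB (X j) (Z j) (X (j + 1)) (f j) (f' j) (A j) (L' j) (L' (j + 1)) (c' j)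
        (c' (j + 1)) ρ (σ j) (σ (j + 1)) := by
  obtain ⟨t, hcmp⟩ := hn
  choose pp qq hpp hqq hpq tt htt using fun j e => (hflip j).iso e
  -- the exponents
  let Q : ℕ → Fin (k + s) → ℕ := fun j => Nat.rec (fun _ => 1) (fun j Qj e => qq j e * Qj e) j
  have hQ0 : ∀ e, Q 0 e = 1 := fun e => rfl
  have hQs : ∀ j e, Q (j + 1) e = qq j e * Q j e := fun j e => rfl
  have hQ1 : ∀ j e, 1 ≤ Q j e := by
    intro j
    induction j with
    | zero => intro e; rw [hQ0]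
    | succ j ih => intro e; rw [hQs]; exact Nat.mul_pos (hqq j e) (ih e)
  have hlb : ∀ j e, IsLBx (X j) (L j e) := fun j e => (hflip j).lb e
  -- the sections
  let T : ℕ → Type := fun j => {σ : ∀ i : Fin s, (L j (Fin.natAdd k i)).ι → (X j).pt → ℂ //
    ∀ i, IsSecx (X j) univ ((L j (Fin.natAdd k i)).pow (Q j (Fin.natAdd k i))) (σ i)}
  have hvs : Function.Surjective fun y => p (v y) := hres.psurj.comp hres.surj
  have h0 : ∃ σ : ∀ i : Fin s, (L 0 (Fin.natAdd k i)).ι → (X 0).pt → ℂ,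
      (∀ i, IsSecx (X 0) univ (L 0 (Fin.natAdd k i)) (σ i)) ∧
      ∀ i a ch b y, y ∉ ⋃ l, G l → p (v y) ∈ (L 0 (Fin.natAdd k i)).U a → At ch y →
        y ∈ (M (Fin.natAdd k i)).U b →
        σ i a (p (v y)) * t (Fin.natAdd k i) a (ch, b) y = sg i b y ^ c 0 (Fin.natAdd k i) := by
    have h1 := fun i : Fin s => exists_sec_base (hflip 0).normal hres.emb' hvs hres.an hres.dim
      (fun y y' hy hyy' => ?_) hcmp (hlb 0) (Fin.natAdd k i) (hm0 i) (hM _) (hbd i).sec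
    · choose σ h2 h3 using h1
      exact ⟨σ, h2, h3⟩
    · have h2 := hres.inj y (v y') hy hyy'
      exact hres.emb.inj (mem_univ _) (mem_univ _) h2
  obtain ⟨σ₀, hσ₀, hσ₀'⟩ := h0
  let T₀ : T 0 := ⟨σ₀, fun i => by
    refine ⟨fun a x hx ha => (hσ₀ i).holo a x hx ha, fun a b x hx ha hb => ?_⟩
    have h1 := (hσ₀ i).change a b x hx ha hb
    show σ₀ i a x = (L 0 (Fin.natAdd k i)).g a b x ^ Q 0 (Fin.natAdd k i) * σ₀ i b x
    rw [hQ0, pow_one]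
    exact h1⟩
  have hnext : ∀ j (σ : T j), ∃ σ' : T (j + 1), ∀ i x x' a b, f j x ∉ A j → f' j x' = f j x →
      x ∈ (L j (Fin.natAdd k i)).U a → x' ∈ (L (j + 1) (Fin.natAdd k i)).U b →
      σ.1 i a x ^ pp j (Fin.natAdd k i) *
        tt j (Fin.natAdd k i) a b (f j x) ^ Q j (Fin.natAdd k i) = σ'.1 i b x' := by
    intro j σ
    have h1 := fun i : Fin s => exists_sec_flip (hflip j).normal' (hflip j).small
      (hflip j).small' (hlb j (Fin.natAdd k i)) (hlb (j + 1) (Fin.natAdd k i))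
      (htt j (Fin.natAdd k i)) (σ.2 i)
    choose σ' h2 h3 using h1
    exact ⟨⟨σ', h2⟩, h3⟩
  choose nx hnx using hnext
  let S : ∀ j, T j := fun j => Nat.rec (motive := T) T₀ (fun j σ => nx j σ) j
  have hS0 : S 0 = T₀ := rfl
  have hSs : ∀ j, S (j + 1) = nx j (S j) := fun j => rfl
  -- the new data
  refine ⟨fun j e => (L j e).pow (Q j e), fun j e => c j e * Q j e, fun j => (S j).1, t,
      fun j e => Nat.mul_pos (hc j e) (hQ1 j e), ⟨?_, ?_⟩, ?_, ?_, ?_, fun j => ⟨?_, ?_, ?_, ?_⟩⟩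
  · exact hcmp.div
  · intro y e i i₁ j j₁ hy hi hi₁ hj hj₁
    have h1 := hcmp.change y e i i₁ j j₁ hy hi hi₁ hj hj₁
    show t e i₁ j₁ y = (L 0 e).g i i₁ (p (v y)) ^ Q 0 e * t e i j y *
      ((((Bd.can 4 Y).pow (m e)).mul (M e)).g j₁ j y) ^ (c 0 e * Q 0 e)
    rw [hQ0, pow_one, mul_one]
    exact h1
  · intro i a ch b y hy ha hch hb
    show σ₀ i a (p (v y)) * t (Fin.natAdd k i) a (ch, b) y =
      sg i b y ^ (c 0 (Fin.natAdd k i) * Q 0 (Fin.natAdd k i))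
    rw [hQ0, mul_one]
    exact hσ₀' i a ch b y hy ha hch hb
  · intro e
    show c 0 e * Q 0 e = c 0 e
    rw [hQ0, mul_one]
  · intro e
    show (L 0 e).pow (Q 0 e) = L 0 e
    rw [hQ0]
    simp only [Bd.pow, pow_one]
  · exact IsFlipR.pow (hflip j) (hpp j) (hpq j) (htt j) (Q j)
  · exact (S j).2
  · exact (S (j + 1)).2
  · intro i
    refine ⟨pp j (Fin.natAdd k i), 1, hpp j _, le_rfl, ?_, _, isIso_pow' (htt j _),
      fun x x' a b hx hxx' ha hb => ?_⟩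
    · show c j (Fin.natAdd k i) * Q j (Fin.natAdd k i) * pp j (Fin.natAdd k i) =
        c (j + 1) (Fin.natAdd k i) * Q (j + 1) (Fin.natAdd k i) * 1
      rw [hQs, mul_one, ← mul_assoc, ← hpq j]
      ring
    · rw [pow_one]
      exact hnx j (S j) i x x' a b hx hxx' ha hb

end Vale.Agent.P277.H29.W
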