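import Vale.Agent.P277.Stmts36
import Vale.Agent.P277.H29.W.Key
import Vale.Agent.P277.H615.W.AsmW
import Vale.Agent.P277.H762.G.Klt

/-!
# P277, (WZD) and (KLTW)
-/

set_option maxSynthPendingDepth 3
set_option linter.unusedSectionVars false

open scoped Manifold ContDiff Topology
open Vale.Agent.P272.K Vale.Agent.P285.H281.FD Vale.Agent.P267.H175 Set Filter Metric

noncomputable section

namespace Vale.Agent.P277.H29.W

open Vale.Agent.P277 Vale.Agent.P277.T3 H615 H371.C H29.E H884.T H615.WZ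

/-- the key lemma -/
theorem stKeyW : H615.WZ.StKeyW := by
  intro Y _ _ _ _ _ χ k s M m ρ H _ _ _ _ _ _ ι sg W X Z r v p P G f f' A L c σ n t h E hE j Bad
    x hx
  exact badPt_wz h hE j hx

/-- (WZD) -/
theorem stWZD : T3.StWZD := stWZD_of stKeyW

/-- (WZD), the general part -/
theorem wz_gen {Y : Type} [TopologicalSpace Y] [T2Space Y] [CompactSpace Y]
    [ChartedSpace (Cm 4) Y]
    [IsManifold 𝓘(ℂ, Cm 4) ω Y] {χ : Chart 4 Y → Cm 4 → Matrix (Fin 4) (Fin 4) ℂ}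
    (hχ : IsKahler χ) {k s : ℕ} {M : Fin (k + s) → Bd Y} (hM : ∀ e, IsLB 4 (M e))
    (hnef : ∀ e : Fin k, Nef χ (M (Fin.castAdd s e))) {m : Fin (k + s) → ℕ}
    (hm : ∀ e : Fin k, 1 ≤ m (Fin.castAdd s e)) (hm0 : ∀ i : Fin s, m (Fin.natAdd k i) = 0)
    {ρ : Fin (k + s) → ℝ} (hρ : ∀ e, 0 < ρ e) (hsum : ∑ e, ρ e * m e = 1) {H : Fin s → Type}
    [∀ i, TopologicalSpace (H i)] [∀ i, T2Space (H i)] [∀ i, CompactSpace (H i)]
    [∀ i, ConnectedSpace (H i)] [∀ i, ChartedSpace (Cm 3) (H i)]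
    [∀ i, IsManifold 𝓘(ℂ, Cm 3) ω (H i)] {ι : ∀ i, H i → Y}
    {sg : ∀ i : Fin s, (M (Fin.natAdd k i)).ι → Y → ℂ}
    (hbd : ∀ i, IsBd (ι i) (M (Fin.natAdd k i)) (sg i))
    (hdisj : Pairwise fun i j => Disjoint (range (ι i)) (range (ι j)))
    {W : CSp} {X Z : ℕ → CSp} {r : ℕ} {v : Y → W.pt} {p : W.pt → (X 0).pt} {P : Bd W.pt}
    {G : Fin r → Set Y} (hres : T2.IsRes v p P G) (hne : ∀ i, ¬ range (ι i) ⊆ ⋃ l, G l)
    {f : ∀ j, (X j).pt → (Z j).pt} {f' : ∀ j, (X (j + 1)).pt → (Z j).pt}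
    {A : ∀ j, Set (Z j).pt} {L : ∀ j, Fin (k + s) → Bd (X j).pt} {c : ℕ → Fin (k + s) → ℕ}
    (hc : ∀ j e, 1 ≤ c j e) {n : Fin (k + s) → Fin r → ℤ}
    (hn : ∃ t, T2.IsCmpV (fun y => p (v y)) (L 0)
      (fun e => (((Bd.can 4 Y).pow (m e)).mul (M e)).pow (c 0 e)) G n t)
    (hflip : ∀ j, IsFlipR (X j) (Z j) (X (j + 1)) (f j) (f' j) (A j) (L j) (L (j + 1)) (c j)
      (c (j + 1)) ρ)
    {a : Fin r → ℝ} (ha : ∀ l, a l = ∑ e, ρ e * n e l / c 0 e) {E : Set Y}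
    (hE : IsWZ χ (fun y => p (v y)) (L 0) (c 0) ρ E)
    (hor : (∀ N, ∃ j ≥ N, HasRes (X j) ∨ ¬ DimLe (X (j + 1)) 1 {x | f' j x ∈ Amin (f j)}) ∨
      ∀ j, DimLe (X (j + 1)) 1 {x | f' j x ∈ Amin (f j) ∧ ¬ IsReg 4 (X (j + 1)) x ∧
        (x ∈ Tot (Cor (⋃ l, G l) (fun y => p (v y)) f f' (j + 1))
          (closure ((bad ι G {l | a l < -1} {i | 1 < ρ (Fin.natAdd k i)} ∪
            cross ι G {l | -1 ≤ a l ∧ a l < 0}) ∩ {y | p (v y) ∈ hit f f'})) ∨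
        x ∈ closure (Val (Cor (⋃ l, G l) (fun y => p (v y)) f f' (j + 1))
          (⋃ l ∈ {l | (-1 ≤ a l ∧ a l < 0) ∧ ZD (fun y => p (v y)) (hit f f') (G l)}, G l)))}) :
    ¬ ∃ J, ∀ j ≥ J,
      DimLe (X (j + 1)) 1 {x | BadPt {x | f' j x ∈ Amin (f j)}
        (Cor (⋃ l, G l) (fun y => p (v y)) f f' (j + 1))
        (((bad ι G {l | a l < 0 ∧ (a l ≤ -1 ∨
              G l ⊆ E ∧ ZT (⋃ l, G l) (fun y => p (v y)) f f' (G l))}
            {i | 1 ≤ ρ (Fin.natAdd k i)} ∪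
          cross ι G {l | -1 < a l ∧ a l < 0}) ∩
            hitT (⋃ l, G l) (fun y => p (v y)) f f' j) ∩ E) x} ∧
      DimLe (X (j + 1)) 1 {x | f' j x ∈ Amin (f j) ∧ ¬ IsReg 4 (X (j + 1)) x ∧
        x ∈ Tot (Cor (⋃ l, G l) (fun y => p (v y)) f f' (j + 1))
          (closure ((bad ι G {l | a l < -1} {i | 1 < ρ (Fin.natAdd k i)} ∪
            cross ι G {l | -1 ≤ a l ∧ a l < 0}) ∩
              hitT (⋃ l, G l) (fun y => p (v y)) f f' j))} := by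
  have hp1 := (stT8A Y χ hχ k s M hM hnef m hm hm0 ρ hρ hsum H ι sg hbd hdisj W X Z r
    v p P G hres hne f f' A L c hc n hn hflip a ha).1
  obtain ⟨L', c', σ, t, hc', hcmp, hcorr, hcc, hLL, hfl⟩ :=
    wrap_core' (ι := ι) hM hm0 hbd hres hc hn hflip
  have h' : IsPG χ M m ρ ι sg v p P G f f' A L' c' σ n t :=
    ⟨hχ, hM, hnef, hm, hm0, hρ, hsum, hbd, hdisj, hres, hne, hc', hcmp, hcorr, hfl⟩
  have ha' : ∀ l, a l = ∑ e, ρ e * n e l / c' 0 e := by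
    intro l
    simp only [hcc]
    exact ha l
  have h := h'.amin
  have hE' : IsWZ χ (fun y => p (v y)) (L' 0) (c' 0) ρ E := by
    rw [show L' 0 = L 0 from funext hLL, show c' 0 = c 0 from funext hcc]
    exact hE
  rintro ⟨J₁, hcon⟩
  obtain ⟨J₃, hp1⟩ := hp1
  have hreg : ∃ J, ∀ j ≥ J, DimLe (X (j + 1)) 1
      {x | x ∈ f' j ⁻¹' Amin (f j) ∧ ¬ IsReg 4 (X (j + 1)) x} := by
    refine ⟨max J₁ J₃, fun j hj => ?_⟩
    refine (((hcon j (by omega)).2).union (hp1 j (by omega))).mono ?_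
    rintro x ⟨g1, g2⟩
    by_cases g4 : x ∈ Tot (Cor (⋃ l, G l) (fun y => p (v y)) f f' (j + 1))
        (closure ((bad ι G {l | a l < -1} {i | 1 < ρ (Fin.natAdd k i)} ∪
          cross ι G {l | -1 ≤ a l ∧ a l < 0}) ∩
            hitT (⋃ l, G l) (fun y => p (v y)) f f' j))
    · exact Or.inl ⟨g1, g2, g4⟩
    · exact Or.inr ⟨g1, g2, g4⟩
  have hP := hP8W h' ha' (wz_an hE).1 (wz_an hE).2 (fun j _ _ hx => badPt_wz h' hE' j hx)
    ⟨J₁, fun j hj => (hcon j hj).1⟩ hreg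
  rcases hor with hr | h1
  · exact H371.T.fin_coreD H615.X.stContrS h.lb h.bd h.res h.ne h.c1 h.cmp h.corr h.flip hP hr
  · have hreg' : ∀ j, DimLe (X (j + 1)) 1
        {x | x ∈ f' j ⁻¹' Amin (f j) ∧ ¬ IsReg 4 (X (j + 1)) x} := by
      refine stRegH Y χ k s M m ρ H ι sg W X Z r v p P G f f' A L' c' σ n t h'
        {l | a l < -1} {l | -1 ≤ a l ∧ a l < 0} {i | 1 < ρ (Fin.natAdd k i)}
        (fun l hl hlK => ?_) (fun i hi => not_lt.1 hi) (fun l hl => ?_) h1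
      · rw [← ha']
        by_contra h3
        exact hlK ⟨not_lt.1 hl, not_le.1 h3⟩
      · rw [← ha']; exact hl.1
    exact H371.G.fin_core stContr h.lb h.bd h.res h.ne h.c1 h.cmp h.corr h.flip hreg' hP

/-- (KLTW) -/
theorem stKltW : T3.StKltW := by
  intro Y _ _ _ _ _ χ hχ k s M hM hnef m hm hm0 ρ hρ hsum H _ _ _ _ _ _ ι sg hbd
    hdisj W X Z r v p P G hres hne f f' A L c hc n hn hflip a ha hb hklt hd1 hd2
  have h0 := H762.G.stKlt Y χ hχ k s M hM hnef m hm hm0 ρ hρ hsum H ι sg hbd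
    hdisj W X Z r v p P G hres hne f f' A L c hc n hn hflip a ha hb hklt hd1 hd2
  refine ⟨h0.1, fun E hE ⟨hJ, hor⟩ => ?_, h0.2.2⟩
  obtain ⟨L', c', σ, t, hc', hcmp, hcorr, hcc, -, hfl⟩ :=
    wrap_core' (ι := ι) hM hm0 hbd hres hc hn hflip
  have h' : IsPG χ M m ρ ι sg v p P G f f' A L' c' σ n t :=
    ⟨hχ, hM, hnef, hm, hm0, hρ, hsum, hbd, hdisj, hres, hne, hc', hcmp, hcorr, hfl⟩
  have ha' : ∀ l, a l = ∑ e, ρ e * n e l / c' 0 e := by
    intro l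
    simp only [hcc]
    exact ha l
  have h := h'.amin
  have hsm : ∀ j, IsSmall (X j) (Z j) (f j) (Amin (f j)) := fun j => (h.flip j).flip.small
  have hsm' : ∀ j, IsSmall (X (j + 1)) (Z j) (f' j) (Amin (f j)) := fun j =>
    (h.flip j).flip.small'
  have hcross : ∀ K : Set (Fin r), (∀ l ∈ K, a l < 0) → cross ι G K = ∅ := by
    intro K hK
    refine eq_empty_of_forall_notMem ?_
    rintro y ⟨l, hl, hy, ⟨l', hl', hne', hy'⟩ | ⟨i, hi⟩⟩
    · exact disjoint_left.1 (hd1 l' l hne' (hK l' hl') (hK l hl)) hy' hy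
    · exact disjoint_left.1 (hd2 l i (hK l hl)) hy hi
  have hempty : T3.bad ι G {l | a l < -1} {i | 1 < ρ (Fin.natAdd k i)} ∪
      cross ι G {l | -1 ≤ a l ∧ a l < 0} = ∅ := by
    rw [hcross _ fun l hl => hl.2, union_empty]
    refine eq_empty_of_forall_notMem fun y hy => ?_
    rcases hy with hy | hy
    · obtain ⟨l, hl, -⟩ := mem_iUnion₂.1 hy
      exact lt_asymm (hklt l) hl
    · obtain ⟨i, hi, -⟩ := mem_iUnion₂.1 hy
      exact lt_asymm (hb i) hi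
  obtain ⟨J, hJ⟩ := hJ
  refine wz_gen hχ hM hnef hm hm0 hρ hsum hbd hdisj hres hne hc hn hflip ha hE ?_
    ⟨J, fun j hj => ?_⟩
  · rcases hor with h1 | h1
    · refine Or.inr fun j => (h1 j).mono ?_
      rintro x ⟨g1, g2, g3⟩
      refine ⟨g1, g2, ?_⟩
      rcases g3 with g3 | g3
      · obtain ⟨y, hy, -⟩ := g3
        rw [hempty, empty_inter, closure_empty] at hy
        exact hy.elim
      · refine closure_mono ?_ g3
        rintro x' ⟨y, hy, hx'⟩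
        obtain ⟨l, hl, hy⟩ := mem_iUnion₂.1 hy
        exact ⟨y, mem_iUnion₂.2 ⟨l, ⟨hl.1.2, hl.2⟩, hy⟩, hx'⟩
    · exact Or.inl h1
  · have hneX : Nonempty (X (j + 1)).pt := by
      have h3 := (hflip (j + 1)).ninj
      rw [Function.Injective] at h3
      push Not at h3
      obtain ⟨x, -⟩ := h3
      exact ⟨x⟩
    refine ⟨dimLe_empty.mono ?_, dimLe_empty.mono ?_⟩
    · intro x hx
      refine (H762.G.no_badPt h' ha' hklt hb hd1 hd2
        {l | G l ⊆ E ∧ ZD (fun y => p (v y)) (hit f f') (G l)} j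
        ((hJ j hj).mono ?_) x ?_).elim
      · rintro x ⟨g1, l, g2, g3, g4⟩
        exact ⟨g1, l, g3, g2.1, g2.2, g4⟩
      · obtain ⟨ξ, r', W', w₀, γ, ch, g1, g2, g3, g4, g5, g6, g7, g8, g9, g10⟩ := hx
        refine ⟨ξ, r', W', w₀, γ, ch, g1, g2, g3, g4, g5, g6, g7, g8, g9, fun w hw => ?_⟩
        obtain ⟨k1, k2, k3, k4, k5, k6⟩ := g10 w hw
        refine ⟨k1, k2, k3, k4, k5, fun h0 => ⟨?_, (k6 h0).2⟩⟩
        obtain ⟨⟨hy, -⟩, -⟩ := (k6 h0).1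
        rw [hcross _ fun l hl => hl.2, union_empty] at hy
        rcases hy with hy | hy
        · obtain ⟨l, hl, hy⟩ := mem_iUnion₂.1 hy
          rcases hl.2 with h3 | h3
          · exact absurd (hklt l) (not_lt.2 h3)
          · exact mem_iUnion₂.2 ⟨l, ⟨⟨h3.1, zt_zd hres hsm hsm' h3.2⟩, hl.1⟩, hy⟩
        · obtain ⟨i, hi, -⟩ := mem_iUnion₂.1 hy
          exact absurd (hb i) (not_lt.2 hi)
    · rintro x ⟨-, -, y, hy, -⟩
      rw [hempty, empty_inter, closure_empty] at hy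
      exact hy

end Vale.Agent.P277.H29.W
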