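import Vale.Agent.P277.H29.W.Hfun
import Vale.Agent.P277.Stmts35

/-!
# P277, (WZD): the function `log |z|²`, and the weight of `P + N`
-/

open scoped Manifold ContDiff ComplexOrder Topology
open Vale.Agent.P272.K Vale.Agent.P285.H281.FD Set Filter

noncomputable section

namespace Vale.Agent.P277.H29.W

open Vale.Agent.P277 Vale.Agent.P277.H19

/-- `log |z|²` -/
def lg (z : ℂ) : ℝ := Real.log (‖z‖ ^ 2)

theorem lg_mul {z z' : ℂ} (h : z ≠ 0) (h' : z' ≠ 0) : lg (z * z') = lg z + lg z' := by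
  rw [lg, norm_mul, mul_pow, Real.log_mul (pow_ne_zero _ (norm_ne_zero_iff.2 h))
    (pow_ne_zero _ (norm_ne_zero_iff.2 h'))]
  rfl

theorem lg_one : lg 1 = 0 := by simp [lg]

theorem lg_zpow (z : ℂ) (n : ℤ) : lg (z ^ n) = n * lg z := by
  rw [lg, lg, norm_zpow, Real.log_pow, Real.log_zpow, Real.log_pow]
  ring

theorem lg_pow (z : ℂ) (n : ℕ) : lg (z ^ n) = n * lg z := by
  have := lg_zpow z n
  simpa using this

theorem lg_prod {ι : Type} (s : Finset ι) {f : ι → ℂ} (h : ∀ i ∈ s, f i ≠ 0) :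
    lg (∏ i ∈ s, f i) = ∑ i ∈ s, lg (f i) := by
  classical
  induction s using Finset.induction_on with
  | empty => simp [lg_one]
  | insert a s ha ih =>
    rw [Finset.prod_insert ha, Finset.sum_insert ha, lg_mul (h a (Finset.mem_insert_self a s))
      (Finset.prod_ne_zero_iff.2 fun i hi => h i (Finset.mem_insert_of_mem hi)),
      ih fun i hi => h i (Finset.mem_insert_of_mem hi)]

/-- `log |F|²` for a holomorphic function without zeros -/
theorem lg_c2 {F : Cm 4 → ℂ} {z : Cm 4} (h : ContDiffAt ℂ ω F z) (h0 : F z ≠ 0) :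
    ContDiffAt ℝ 2 (fun y => lg (F y)) z ∧ cHess (fun y => lg (F y)) z = 0 := by
  refine ⟨?_, cHess_log_norm_sq h h0⟩
  have hr : ContDiffAt ℝ 2 F z := (h.restrict_scalars ℝ).of_le le_top
  exact ContDiffAt.log (hr.norm_sq ℝ) (pow_ne_zero _ (norm_ne_zero_iff.2 h0))

/-- finite sums of pluriharmonic functions -/
theorem sum_ph {ι : Type} (s : Finset ι) {f : ι → Cm 4 → ℝ} {c : ι → ℝ} {z : Cm 4}
    (h : ∀ i ∈ s, ContDiffAt ℝ 2 (f i) z ∧ cHess (f i) z = 0) :
    ContDiffAt ℝ 2 (fun y => ∑ i ∈ s, c i * f i y) z ∧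
      cHess (fun y => ∑ i ∈ s, c i * f i y) z = 0 := by
  have h1 : ∀ i ∈ s, ContDiffAt ℝ 2 (fun y => c i * f i y) z := fun i hi =>
    contDiffAt_const.mul (h i hi).1
  refine ⟨ContDiffAt.sum h1, ?_⟩
  rw [H371.cHess_sum s h1]
  refine Finset.sum_eq_zero fun i hi => ?_
  rw [cHess_const_mul (c i) (h i hi).1, (h i hi).2, smul_zero]

/-- finite sums of almost psh functions -/
theorem sum_psh {ι : Type} (s : Finset ι) {f : ι → Cm 4 → ℝ} {c : ι → ℝ} {z : Cm 4} {δ : ℝ}
    {A : Matrix (Fin 4) (Fin 4) ℂ} (hc : ∀ i ∈ s, 0 ≤ c i)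
    (h : ∀ i ∈ s, ContDiffAt ℝ 2 (f i) z ∧ (cHess (f i) z + (δ : ℂ) • A).PosSemidef) :
    ContDiffAt ℝ 2 (fun y => ∑ i ∈ s, c i * f i y) z ∧
      (cHess (fun y => ∑ i ∈ s, c i * f i y) z + (((∑ i ∈ s, c i) * δ : ℝ) : ℂ) • A).PosSemidef := by
  classical
  have h1 : ∀ i ∈ s, ContDiffAt ℝ 2 (fun y => c i * f i y) z := fun i hi =>
    contDiffAt_const.mul (h i hi).1
  refine ⟨ContDiffAt.sum h1, ?_⟩
  rw [H371.cHess_sum s h1]
  have h2 : ∑ i ∈ s, cHess (fun y => c i * f i y) z + (((∑ i ∈ s, c i) * δ : ℝ) : ℂ) • A =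
      ∑ i ∈ s, ((c i : ℝ) : ℂ) • (cHess (f i) z + (δ : ℂ) • A) := by
    simp only [smul_add, Finset.sum_add_distrib, smul_smul]
    rw [← Finset.sum_smul]
    congr 1
    · exact Finset.sum_congr rfl fun i hi => cHess_const_mul (c i) (h i hi).1
    · congr 1
      push_cast
      rw [Finset.sum_mul]
  rw [h2]
  clear h1 h2
  induction s using Finset.induction_on with
  | empty => simpa using Matrix.PosSemidef.zero
  | insert a s ha ih =>
    rw [Finset.sum_insert ha]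
    exact (posSemidef_real_smul (h a (Finset.mem_insert_self a s)).2
      (hc a (Finset.mem_insert_self a s))).add
      (ih (fun i hi => hc i (Finset.mem_insert_of_mem hi))
        fun i hi => h i (Finset.mem_insert_of_mem hi))

end Vale.Agent.P277.H29.W
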