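import Vale.Agent.P277.H29.W.Wt

/-!
# P277, (WZD): the almost psh function
-/

open scoped Manifold ContDiff ComplexOrder Topology
open Vale.Agent.P272.K Vale.Agent.P285.H281.FD Set Filter

noncomputable section

namespace Vale.Agent.P277.H29.W

open Vale.Agent.P277 Vale.Agent.P277.H19

section

variable {Y : Type} [TopologicalSpace Y] [ChartedSpace (Cm 4) Y]

theorem cont_of_chart {Z : Type} [TopologicalSpace Z] {F : Y → Z} {y : Y} {ch : Chart 4 Y}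
    (hch : At ch y) (h : ContinuousAt (fun z => F (ch.symm z)) (ch y)) : ContinuousAt F y := by
  have h3 : ContinuousAt (fun y' => F (ch.symm (ch y'))) y :=
    ContinuousAt.comp (g := fun z => F (ch.symm z)) (f := ch) h (ch.continuousAt hch.2)
  refine h3.congr ?_
  filter_upwards [ch.open_source.mem_nhds hch.2] with y' hy'
  show F (ch.symm (ch y')) = F y'
  rw [ch.left_inv hy']

variable {q : ℕ} {N : Fin q → Bd Y} {I : Set (Fin q)} {τ : ∀ b, (N b).ι → Y → ℂ} {E : Set Y}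

theorem sec_zero (hN : ∀ b, IsLB 4 (N b)) (hτ : ∀ b ∉ I, IsSec 4 (N b) (τ b)) {b : Fin q}
    (hb : b ∉ I) {y : Y} {i j : (N b).ι} (hi : y ∈ (N b).U i) (hj : y ∈ (N b).U j)
    (h : τ b i y = 0) : τ b j y = 0 := by
  rw [(hτ b hb).change j i y hj hi, h, mul_zero]

theorem notMem_wz (hN : ∀ b, IsLB 4 (N b)) (hτ : ∀ b ∉ I, IsSec 4 (N b) (τ b))
    (hE : ∀ y, y ∈ E ↔ ∃ b ∉ I, ∃ i, y ∈ (N b).U i ∧ τ b i y = 0) {y : Y}
    {β : ∀ b, (N b).ι} (hβ : ∀ b, y ∈ (N b).U (β b)) :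
    y ∉ E ↔ ∀ b ∉ I, τ b (β b) y ≠ 0 := by
  rw [hE]
  push Not
  constructor
  · intro h b hb
    exact h b hb _ (hβ b)
  · intro h b hb i hi h0
    exact h b hb (sec_zero hN hτ hb hi (hβ b) h0)

theorem isClosed_wz (hN : ∀ b, IsLB 4 (N b)) (hτ : ∀ b ∉ I, IsSec 4 (N b) (τ b))
    (hE : ∀ y, y ∈ E ↔ ∃ b ∉ I, ∃ i, y ∈ (N b).U i ∧ τ b i y = 0) : IsClosed E := by
  rw [← isOpen_compl_iff, isOpen_iff_mem_nhds]
  intro y hy
  choose β hβ using fun b => (hN b).cover y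
  have h1 : ∀ b ∉ I, ∀ᶠ y' in 𝓝 y, τ b (β b) y' ≠ 0 := by
    intro b hb
    have h2 : ContinuousAt (τ b (β b)) y := cont_of_chart (H19.at_chartAt y)
      ((hτ b hb).holo (β b) _ y (H19.at_chartAt y) (hβ b)).continuousAt
    exact h2.eventually_ne ((notMem_wz hN hτ hE hβ).1 hy b hb)
  have h2 : ∀ᶠ y' in 𝓝 y, ∀ b, b ∉ I → τ b (β b) y' ≠ 0 := by
    rw [eventually_all]
    intro b
    by_cases hb : b ∈ I
    · exact Eventually.of_forall fun _ h => (h hb).elim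
    · exact (h1 b hb).mono fun _ h _ => h
  have h3 : ∀ᶠ y' in 𝓝 y, ∀ b, y' ∈ (N b).U (β b) := by
    rw [eventually_all]
    exact fun b => ((hN b).isOpen (β b)).mem_nhds (hβ b)
  filter_upwards [h2, h3] with y' h4 h5
  exact (notMem_wz hN hτ hE h5).2 fun b hb => h4 b hb

variable {X₀ X : CSp} {K A : ℕ}
  {v₀ : Y → X₀.pt} {v : Y → X.pt} {L₀ : Fin K → Bd X₀.pt} {L : Fin K → Bd X.pt}
  {R : Fin K → Bd Y} {c P₀ Q₀ P Q : Fin K → ℕ} {O₀ O : Set Y}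
  {T₀ : ∀ e, (L₀ e).ι → (R e).ι → Y → ℂ} {T : ∀ e, (L e).ι → (R e).ι → Y → ℂ}
  {x : Fin q → ℝ} {nn : Fin A → Fin K → ℤ} {ν : Fin A → Fin q → ℤ}
  {u : Fin A → ℝ} {θ : Fin A → ((∀ e, (L₀ e).ι) × ∀ b, (N b).ι) → Y → ℂ}
  {ρ : Fin K → ℝ}

/-- the part of the weight without `P` and `N` is continuous -/
theorem rest_cont
    (hT₀ : ∀ e, IsIsoY O₀ v₀ ((L₀ e).pow (P₀ e)) ((R e).pow (Q₀ e)) (T₀ e))
    (hT : ∀ e, IsIsoY O v ((L e).pow (P e)) ((R e).pow (Q e)) (T e))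
    (hθ : ∀ l, IsSec 4 ((Bd.lin (fun e => Bd.pull v₀ (L₀ e)) (nn l)).mul (Bd.lin N (ν l))) (θ l))
    (hθ0 : ∀ l y, NZ ((Bd.lin (fun e => Bd.pull v₀ (L₀ e)) (nn l)).mul (Bd.lin N (ν l))) (θ l) y)
    {y : Y} (hy₀ : y ∈ O₀) (hy : y ∈ O) {i : ∀ e, (L e).ι} (hi : ∀ e, v y ∈ (L e).U (i e))
    {a : ∀ e, (L₀ e).ι} (ha : ∀ e, v₀ y ∈ (L₀ e).U (a e))
    {β : ∀ b, (N b).ι} (hβ : ∀ b, y ∈ (N b).U (β b))
    {n : ∀ e, (R e).ι} (hn : ∀ e, y ∈ (R e).U (n e)) :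
    ContinuousAt (fun y => (∑ l, u l * lg (θ l (a, β) y)) +
      ((∑ e, ρ e / Q₀ e * lg (T₀ e (a e) (n e) y)) - ∑ e, ρ e / Q e * lg (T e (i e) (n e) y)))
      y := by
  set ch : Chart 4 Y := chartAt (Cm 4) y with hch'
  have hch : At ch y := H19.at_chartAt y
  have hs : ch.symm (ch y) = y := ch.left_inv hch.2
  have h2 := sum_ph Finset.univ (f := fun l z => lg (θ l (a, β) (ch.symm z))) (c := u)
    (z := ch y) fun l _ => lg_c2 ((hθ l).holo (a, β) ch y hch ⟨ha, hβ⟩)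
      (by rw [hs]; exact hθ0 l y (a, β) ⟨ha, hβ⟩)
  have h3 := sum_ph Finset.univ (f := fun e z => lg (T₀ e (a e) (n e) (ch.symm z)))
    (c := fun e => ρ e / Q₀ e) (z := ch y) fun e _ => lg_c2
      ((hT₀ e).holo y hy₀ (a e) (n e) ch hch (ha e) (hn e)).1.contDiffAt
      (by rw [hs]; exact ((hT₀ e).holo y hy₀ (a e) (n e) ch hch (ha e) (hn e)).2)
  have h4 := sum_ph Finset.univ (f := fun e z => lg (T e (i e) (n e) (ch.symm z)))
    (c := fun e => ρ e / Q e) (z := ch y) fun e _ => lg_c2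
      ((hT e).holo y hy (i e) (n e) ch hch (hi e) (hn e)).1.contDiffAt
      (by rw [hs]; exact ((hT e).holo y hy (i e) (n e) ch hch (hi e) (hn e)).2)
  exact cont_of_chart hch (h2.1.add (h3.1.sub h4.1)).continuousAt

/-- near the support of `N` the weight is negative -/
theorem ph_neg (hN : ∀ b, IsLB 4 (N b)) (hx : ∀ b, 0 < x b) (hτ : ∀ b ∉ I, IsSec 4 (N b) (τ b))
    (hE : ∀ y, y ∈ E ↔ ∃ b ∉ I, ∃ i, y ∈ (N b).U i ∧ τ b i y = 0)
    {w : ∀ b, (N b).ι → Y → ℝ} (hw1 : ∀ b ∈ I, ∀ i y, y ∈ (N b).U i → ContinuousAt (w b i) y)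
    (hw2 : ∀ b ∉ I, ∀ i y, w b i y = lg (τ b i y)) {g : Y → ℝ} {y : Y} (hg : ContinuousAt g y)
    {β : ∀ b, (N b).ι} (hβ : ∀ b, y ∈ (N b).U (β b)) (hy : y ∈ E) :
    ∀ᶠ y' in 𝓝 y, y' ∉ E → (∑ b, x b * w b (β b) y') + g y' ≤ 0 := by
  classical
  have hτc : ∀ b ∉ I, ContinuousAt (τ b (β b)) y := fun b hb => cont_of_chart (H19.at_chartAt y)
    ((hτ b hb).holo (β b) _ y (H19.at_chartAt y) (hβ b)).continuousAt
  have h3 : ∀ᶠ y' in 𝓝 y, ∀ b, y' ∈ (N b).U (β b) := by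
    rw [eventually_all]
    exact fun b => ((hN b).isOpen (β b)).mem_nhds (hβ b)
  -- upper bounds
  have hub : ∀ b, ∃ C : ℝ, ∀ᶠ y' in 𝓝 y, y' ∉ E → x b * w b (β b) y' ≤ C := by
    intro b
    by_cases hb : b ∈ I
    · refine ⟨x b * (w b (β b) y + 1), ?_⟩
      filter_upwards [(hw1 b hb (β b) y (hβ b)).eventually (gt_mem_nhds (lt_add_one _))] with y' h _
      exact mul_le_mul_of_nonneg_left h.le (hx b).le
    · refine ⟨x b * Real.log (‖τ b (β b) y‖ ^ 2 + 1), ?_⟩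
      filter_upwards [((hτc b hb).norm.pow 2).eventually (gt_mem_nhds (lt_add_one _)), h3] with
        y' h h4 h5
      rw [hw2 b hb]
      refine mul_le_mul_of_nonneg_left ?_ (hx b).le
      have h6 : τ b (β b) y' ≠ 0 := (notMem_wz hN hτ hE h4).1 h5 b hb
      exact Real.log_le_log (pow_pos (norm_pos_iff.2 h6) 2) h.le
  choose C hC using hub
  obtain ⟨b₀, hb₀, i₀, hi₀, h0⟩ := (hE y).1 hy
  have h00 : τ b₀ (β b₀) y = 0 := sec_zero hN hτ hb₀ hi₀ (hβ b₀) h0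
  -- the term which tends to `-∞`
  have hb : ∀ B : ℝ, ∀ᶠ y' in 𝓝 y, y' ∉ E → x b₀ * w b₀ (β b₀) y' ≤ B := by
    intro B
    have h1 : Tendsto (fun y' => ‖τ b₀ (β b₀) y'‖ ^ 2) (𝓝 y) (𝓝 0) := by
      have h2 : Tendsto (fun y' => ‖τ b₀ (β b₀) y'‖ ^ 2) (𝓝 y) (𝓝 (‖τ b₀ (β b₀) y‖ ^ 2)) :=
        ((hτc b₀ hb₀).norm.pow 2).tendsto
      rwa [h00, norm_zero, zero_pow two_ne_zero] at h2
    filter_upwards [h1.eventually (gt_mem_nhds (Real.exp_pos (B / x b₀))), h3] with y' h h4 h5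
    rw [hw2 b₀ hb₀]
    have h6 : τ b₀ (β b₀) y' ≠ 0 := (notMem_wz hN hτ hE h4).1 h5 b₀ hb₀
    have h7 : lg (τ b₀ (β b₀) y') ≤ B / x b₀ := by
      rw [lg, Real.log_le_iff_le_exp (pow_pos (norm_pos_iff.2 h6) 2)]
      exact h.le
    calc x b₀ * lg (τ b₀ (β b₀) y') ≤ x b₀ * (B / x b₀) :=
          mul_le_mul_of_nonneg_left h7 (hx b₀).le
      _ = B := mul_div_cancel₀ _ (hx b₀).ne'
  have hall : ∀ᶠ y' in 𝓝 y, ∀ b, y' ∉ E → x b * w b (β b) y' ≤ C b := by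
    rw [eventually_all]
    exact hC
  filter_upwards [hall, hb (-(∑ b ∈ Finset.univ.erase b₀, C b) - (g y + 1)),
    hg.eventually (gt_mem_nhds (lt_add_one _))] with y' h1 h2 h4 h5
  have h6 : ∑ b, x b * w b (β b) y' = x b₀ * w b₀ (β b₀) y' +
      ∑ b ∈ Finset.univ.erase b₀, x b * w b (β b) y' :=
    (Finset.add_sum_erase _ _ (Finset.mem_univ b₀)).symm
  have h7 : ∑ b ∈ Finset.univ.erase b₀, x b * w b (β b) y' ≤ ∑ b ∈ Finset.univ.erase b₀, C b :=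
    Finset.sum_le_sum fun b _ => h1 b h5
  have h8 := h2 h5
  rw [h6]
  linarith

/-- the almost psh function -/
theorem exists_phi {χ : Chart 4 Y → Cm 4 → Matrix (Fin 4) (Fin 4) ℂ} (hχ : IsKahler χ)
    (hL₀ : ∀ e, IsLBx X₀ (L₀ e)) (hL : ∀ e, IsLBx X (L e))
    (hRo : ∀ e i, IsOpen ((R e).U i)) (hRc : ∀ e y, ∃ i, y ∈ (R e).U i)
    (hRne : ∀ e i j y, y ∈ (R e).U i → y ∈ (R e).U j → (R e).g i j y ≠ 0)
    (hT₀ : ∀ e, IsIsoY O₀ v₀ ((L₀ e).pow (P₀ e)) ((R e).pow (Q₀ e)) (T₀ e))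
    (hT : ∀ e, IsIsoY O v ((L e).pow (P e)) ((R e).pow (Q e)) (T e))
    (hc1 : ∀ e, 1 ≤ c e) (hm : ∀ e, c e * P₀ e = Q₀ e) (hQ₀ : ∀ e, 1 ≤ Q₀ e)
    (hQ : ∀ e, 1 ≤ Q e) (hv₀ : Continuous v₀) (hO : IsOpen O) (hOO : O ⊆ O₀)
    (hv : ContinuousOn v O)
    (hN : ∀ b, IsLB 4 (N b)) (hx : ∀ b, 0 < x b) (hnef : ∀ b ∈ I, Nef χ (N b))
    (hτ : ∀ b ∉ I, IsSec 4 (N b) (τ b))
    (hE : ∀ y, y ∈ E ↔ ∃ b ∉ I, ∃ i, y ∈ (N b).U i ∧ τ b i y = 0)
    (hθ : ∀ l, IsSec 4 ((Bd.lin (fun e => Bd.pull v₀ (L₀ e)) (nn l)).mul (Bd.lin N (ν l))) (θ l))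
    (hθ0 : ∀ l y, NZ ((Bd.lin (fun e => Bd.pull v₀ (L₀ e)) (nn l)).mul (Bd.lin N (ν l))) (θ l) y)
    (hρ : ∀ e, ρ e = ∑ l, u l * (nn l e * c e)) (hxν : ∀ b, -x b = ∑ l, u l * ν l b)
    (i : ∀ e, (L e).ι) {δ : ℝ} (hδ : 0 < δ) :
    ∃ (φ : Y → ℝ) (w : ∀ b, (N b).ι → Y → ℝ),
      (∀ y ∈ O, (∀ e, v y ∈ (L e).U (i e)) → ∀ ch : Chart 4 Y, At ch y →
        ContDiffAt ℝ 2 (fun z => φ (ch.symm z)) (ch y) ∧
        (cHess (fun z => φ (ch.symm z)) (ch y) + (δ : ℂ) • χ ch (ch y)).PosSemidef) ∧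
      (∀ b, ∀ y ∉ E, ∀ i, y ∈ (N b).U i → ContinuousAt (w b i) y) ∧
      ∀ y ∈ O, y ∉ E → (∀ e, v y ∈ (L e).U (i e)) → ∀ (a : ∀ e, (L₀ e).ι) (β : ∀ b, (N b).ι)
        (n : ∀ e, (R e).ι), (∀ e, v₀ y ∈ (L₀ e).U (a e)) → (∀ b, y ∈ (N b).U (β b)) →
          (∀ e, y ∈ (R e).U (n e)) → φ y = hc (Ph x w u θ ρ Q₀ Q T₀ T i a β n y) := by
  classical
  have hEc : IsClosed E := isClosed_wz hN hτ hE
  set S : ℝ := ∑ b, x b with hS
  have hS0 : 0 ≤ S := Finset.sum_nonneg fun b _ => (hx b).le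
  set δ' : ℝ := δ / (S + 1) with hδ'
  have hδ'0 : 0 < δ' := div_pos hδ (by linarith)
  have hδS : S * δ' ≤ δ := by
    rw [hδ', mul_div_assoc', div_le_iff₀ (by linarith)]
    nlinarith
  choose ψ hψ hψ2 using fun b : {b // b ∈ I} => hnef b.1 b.2 δ' hδ'0
  set w : ∀ b, (N b).ι → Y → ℝ := fun b i y =>
    if hb : b ∈ I then ψ ⟨b, hb⟩ i y else lg (τ b i y) with hw
  have hwI : ∀ b (hb : b ∈ I) i, w b i = ψ ⟨b, hb⟩ i := by
    intro b hb i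
    funext y
    simp only [hw, dif_pos hb]
  have hwn : ∀ b ∉ I, ∀ i y, w b i y = lg (τ b i y) := by
    intro b hb i y
    simp only [hw, dif_neg hb]
  have hwn' : ∀ b ∉ I, ∀ i, w b i = fun y => lg (τ b i y) := by
    intro b hb i
    funext y
    exact hwn b hb i y
  -- change of frames
  have hwc : ∀ y ∉ E, ∀ b i j, y ∈ (N b).U i → y ∈ (N b).U j →
      w b i y = w b j y + lg ((N b).g i j y) := by
    intro y hy b i j hi hj
    by_cases hb : b ∈ I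
    · rw [hwI b hb, hwI b hb]
      exact (hψ ⟨b, hb⟩).change i j y hi hj
    · rw [hwn b hb, hwn b hb, (hτ b hb).change i j y hi hj,
        lg_mul ((hN b).ne_zero _ _ _ hi hj), add_comm]
      intro h0
      exact hy ((hE y).2 ⟨b, hb, j, hj, h0⟩)
  -- almost psh
  have hwp : ∀ y ∉ E, ∀ ch : Chart 4 Y, At ch y → ∀ b i, y ∈ (N b).U i →
      ContDiffAt ℝ 2 (fun z => w b i (ch.symm z)) (ch y) ∧
      (cHess (fun z => w b i (ch.symm z)) (ch y) + (δ' : ℂ) • χ ch (ch y)).PosSemidef := by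
    intro y hy ch hch b i hi
    by_cases hb : b ∈ I
    · rw [hwI b hb]
      exact ⟨((hψ ⟨b, hb⟩).smooth i ch y hch hi).of_le ENat.LEInfty.out,
        hψ2 ⟨b, hb⟩ i ch y hch hi⟩
    · have hs : ch.symm (ch y) = y := ch.left_inv hch.2
      have h1 := lg_c2 ((hτ b hb).holo i ch y hch hi) (by
        rw [hs]
        intro h0
        exact hy ((hE y).2 ⟨b, hb, i, hi, h0⟩))
      rw [hwn' b hb]
      refine ⟨h1.1, ?_⟩
      rw [h1.2, zero_add]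
      exact posSemidef_real_smul (hχ.posDef ch y hch).posSemidef hδ'0.le
  choose a₀ ha₀ using fun y e => (hL₀ e).cover (v₀ y)
  choose β₀ hβ₀ using fun y b => (hN b).cover y
  choose n₀ hn₀ using fun y e => hRc e y
  set φ : Y → ℝ := fun y => if y ∈ E then 0 else
    hc (Ph x w u θ ρ Q₀ Q T₀ T i (a₀ y) (β₀ y) (n₀ y) y) with hφ
  have hφE : ∀ y ∈ E, φ y = 0 := fun y hy => by simp only [hφ, if_pos hy]
  have hφn : ∀ y ∈ O, y ∉ E → (∀ e, v y ∈ (L e).U (i e)) → ∀ (a : ∀ e, (L₀ e).ι)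
      (β : ∀ b, (N b).ι) (n : ∀ e, (R e).ι), (∀ e, v₀ y ∈ (L₀ e).U (a e)) →
      (∀ b, y ∈ (N b).U (β b)) → (∀ e, y ∈ (R e).U (n e)) →
      φ y = hc (Ph x w u θ ρ Q₀ Q T₀ T i a β n y) := by
    intro y hy hyE hi a β n ha hβ hn
    simp only [hφ, if_neg hyE]
    rw [ph_indep hL₀ hL hRne hN hT₀ hT hc1 hm hQ₀ hQ hθ hθ0 hρ hxν (hwc y hyE) (hOO hy) hy hi
      (ha₀ y) ha (hβ₀ y) hβ (hn₀ y) hn]
  refine ⟨φ, w, ?_, ?_, hφn⟩
  · intro y hy hi ch hch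
    have hs : ch.symm (ch y) = y := ch.left_inv hch.2
    have hcs : ContinuousAt ch.symm (ch y) := ch.continuousAt_symm (ch.map_source hch.2)
    -- the conditions near `y`
    have c1 : ∀ᶠ y' in 𝓝 y, y' ∈ O := hO.mem_nhds hy
    have c2 : ∀ᶠ y' in 𝓝 y, ∀ e, v y' ∈ (L e).U (i e) := by
      rw [eventually_all]
      intro e
      exact (hv.continuousAt (hO.mem_nhds hy)).eventually_mem (((hL e).isOpen (i e)).mem_nhds (hi e))
    have c3 : ∀ᶠ y' in 𝓝 y, ∀ e, v₀ y' ∈ (L₀ e).U (a₀ y e) := by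
      rw [eventually_all]
      intro e
      exact hv₀.continuousAt.eventually_mem (((hL₀ e).isOpen _).mem_nhds (ha₀ y e))
    have c4 : ∀ᶠ y' in 𝓝 y, ∀ b, y' ∈ (N b).U (β₀ y b) := by
      rw [eventually_all]
      exact fun b => ((hN b).isOpen _).mem_nhds (hβ₀ y b)
    have c5 : ∀ᶠ y' in 𝓝 y, ∀ e, y' ∈ (R e).U (n₀ y e) := by
      rw [eventually_all]
      exact fun e => (hRo e _).mem_nhds (hn₀ y e)
    by_cases hyE : y ∈ E
    · have h1 := ph_neg hN hx hτ hE (w := w) (fun b hb j y' hj => by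
        rw [hwI b hb]
        exact cont_of_chart (H19.at_chartAt y')
          ((hψ ⟨b, hb⟩).smooth j _ y' (H19.at_chartAt y') hj).continuousAt) hwn
        (rest_cont (u := u) (ρ := ρ) hT₀ hT hθ hθ0 (hOO hy) hy hi (ha₀ y) (hβ₀ y) (hn₀ y))
        (hβ₀ y) hyE
      have h2 : ∀ᶠ y' in 𝓝 y, φ y' = 0 := by
        filter_upwards [h1, c1, c2, c3, c4, c5] with y' g1 g2 g3 g4 g5 g6
        by_cases hy' : y' ∈ E
        · exact hφE y' hy'
        · rw [hφn y' g2 hy' g3 _ _ _ g4 g5 g6]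
          refine hc_zero ?_
          have g7 := g1 hy'
          unfold Ph
          linarith
      have h3 : (fun z => φ (ch.symm z)) =ᶠ[𝓝 (ch y)] fun _ => 0 := by
        have h4 : ∀ᶠ y' in 𝓝 (ch.symm (ch y)), φ y' = 0 := by rw [hs]; exact h2
        exact hcs.eventually h4
      refine ⟨contDiffAt_const.congr_of_eventuallyEq h3, ?_⟩
      rw [cHess_congr h3]
      have h4 : cHess (fun _ : Cm 4 => (0 : ℝ)) (ch y) = 0 := by
        have h5 : ContDiffAt ℝ 2 (fun _ : Cm 4 => (0 : ℝ)) (ch y) := contDiffAt_const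
        have h6 := cHess_const_mul (f := fun _ : Cm 4 => (0 : ℝ)) (z := ch y) 0 h5
        simpa using h6
      rw [h4, zero_add]
      exact posSemidef_real_smul (hχ.posDef ch y hch).posSemidef hδ.le
    · have h1 := ph_psh (χ := χ) (u := u) (ρ := ρ) hT₀ hT hθ hθ0 (fun b => (hx b).le) hch
        (hwp y hyE ch hch) (hOO hy) hy hi (ha₀ y) (hβ₀ y) (hn₀ y)
      have h3 : (fun z => φ (ch.symm z)) =ᶠ[𝓝 (ch y)] fun z =>
          hc (Ph x w u θ ρ Q₀ Q T₀ T i (a₀ y) (β₀ y) (n₀ y) (ch.symm z)) := by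
        have h4 : ∀ᶠ y' in 𝓝 (ch.symm (ch y)), φ y' =
            hc (Ph x w u θ ρ Q₀ Q T₀ T i (a₀ y) (β₀ y) (n₀ y) y') := by
          rw [hs]
          filter_upwards [hEc.isOpen_compl.mem_nhds hyE, c1, c2, c3, c4, c5] with
            y' g1 g2 g3 g4 g5 g6
          exact hφn y' g2 g1 g3 _ _ _ g4 g5 g6
        exact hcs.eventually h4
      have h4 := h1.1
      refine ⟨(hc_contDiff.contDiffAt.comp (ch y) h4).congr_of_eventuallyEq h3, ?_⟩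
      rw [cHess_congr h3]
      refine cHess_hc h4 hδ.le (hχ.posDef ch y hch).posSemidef ?_
      have h5 : cHess (fun z => Ph x w u θ ρ Q₀ Q T₀ T i (a₀ y) (β₀ y) (n₀ y) (ch.symm z)) (ch y) +
          (δ : ℂ) • χ ch (ch y) =
          (cHess (fun z => Ph x w u θ ρ Q₀ Q T₀ T i (a₀ y) (β₀ y) (n₀ y) (ch.symm z)) (ch y) +
            (((∑ b, x b) * δ' : ℝ) : ℂ) • χ ch (ch y)) +
            (((δ - S * δ' : ℝ)) : ℂ) • χ ch (ch y) := by
        rw [add_assoc, ← add_smul, ← hS]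
        congr 2
        push_cast
        ring
      rw [h5]
      exact h1.2.add (posSemidef_real_smul (hχ.posDef ch y hch).posSemidef (by linarith))
  · intro b y hy j hj
    by_cases hb : b ∈ I
    · rw [hwI b hb]
      exact cont_of_chart (H19.at_chartAt y)
        ((hψ ⟨b, hb⟩).smooth j _ y (H19.at_chartAt y) hj).continuousAt
    · exact cont_of_chart (H19.at_chartAt y)
        (hwp y hy _ (H19.at_chartAt y) b j hj).1.continuousAt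

end

end Vale.Agent.P277.H29.W
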