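import Vale.Agent.P277.H762.S.WsDef
import Vale.Agent.P277.H884.S.CoreCov
import Vale.Agent.P277.H615.W.AsmW
import Vale.Agent.P277.H29.W.Key

/-!
# P277, (WS): the singular flipped surfaces and the support of `N`
-/

set_option maxSynthPendingDepth 3
set_option linter.unusedSectionVars false

open scoped Manifold ContDiff Topology
open Vale.Agent.P272.K Vale.Agent.P285.H281.FD Vale.Agent.P267.H175 Set Filter Metric

noncomputable section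

namespace Vale.Agent.P277.H29.W

open Vale.Agent.P277 Vale.Agent.P277.T2 Vale.Agent.P277.T3 Vale.Agent.P277.H335
open Vale.Agent.P277.H615 Vale.Agent.P277.H335.RR Vale.Agent.P277.H335.KK
open Vale.Agent.P277.H884.S (Stp)
open Vale.Agent.P277.H762.S (PlW)

section

variable {Y : Type} [TopologicalSpace Y] [T2Space Y] [CompactSpace Y]
    [ChartedSpace (Cm 4) Y] [IsManifold 𝓘(ℂ, Cm 4) ω Y]
    {χ : Chart 4 Y → Cm 4 → Matrix (Fin 4) (Fin 4) ℂ} {k s : ℕ}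
    {M : Fin (k + s) → Bd Y} {m : Fin (k + s) → ℕ} {ρ : Fin (k + s) → ℝ} {H : Fin s → Type}
    [∀ i, TopologicalSpace (H i)] [∀ i, T2Space (H i)] [∀ i, CompactSpace (H i)]
    [∀ i, ConnectedSpace (H i)] [∀ i, ChartedSpace (Cm 3) (H i)]
    [∀ i, IsManifold 𝓘(ℂ, Cm 3) ω (H i)] {ι : ∀ i, H i → Y}
    {sg : ∀ i : Fin s, (M (Fin.natAdd k i)).ι → Y → ℂ} {W : CSp} {X Z : ℕ → CSp} {r : ℕ}
    {v : Y → W.pt} {p : W.pt → (X 0).pt} {P : Bd W.pt} {G : Fin r → Set Y}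
    {f : ∀ j, (X j).pt → (Z j).pt} {f' : ∀ j, (X (j + 1)).pt → (Z j).pt}
    {A : ∀ j, Set (Z j).pt} {L : ∀ j, Fin (k + s) → Bd (X j).pt} {c : ℕ → Fin (k + s) → ℕ}
    {σ : ∀ j, ∀ i : Fin s, (L j (Fin.natAdd k i)).ι → (X j).pt → ℂ}
    {n : Fin (k + s) → Fin r → ℤ} {t : ∀ e, (L 0 e).ι →
      ((((Bd.can 4 Y).pow (m e)).mul (M e)).pow (c 0 e)).ι → Y → ℂ}

/-- **[WS-3]** If `X (j + 1)` is singular along a flipped surface, then the crepant divisors over it are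
contained in the support of `N`. -/
theorem wz_sing (h : IsPG χ M m ρ ι sg v p P G f f' A L c σ n t) {E : Set Y}
    (hE : IsWZ χ (fun y => p (v y)) (L 0) (c 0) ρ E)
    {O : ℕ → Set Y} {v' : ∀ j, Y → (X j).pt} {P' Q' : ℕ → Fin (k + s) → ℕ}
    {T : ∀ j e, (L j e).ι → (((Bd.can 4 Y).pow (m e)).mul (M e)).ι → Y → ℂ} {Bad : Set Y}
    (hT : H884.G.TwSeqG ρ sg v p G f f' L c σ t Bad O v' P' Q' T) (j : ℕ)
    {a : Fin r → ℝ} (haG : ∀ l, a l = ∑ e, ρ e * n e l / c 0 e) {S : Set (X (j + 1)).pt}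
    {V₁ : Set (X (j + 1)).pt} {Gc : (X (j + 1)).pt → Cm 4} {rr : ℝ} {d nv : ℕ}
    {lm : (X (j + 1)).pt → ℂ} {θc : Cm 4 → ℂ} {ζ : Fin nv → (X (j + 1)).pt → ℂ}
    {aa : Fin d → (X (j + 1)).pt → ℂ} {bb κc : Cm 4 → ℂ} {Nn : ℕ} {sS : Fin d → ℕ}
    {σs : Equiv.Perm (Fin d)} {φ : Fin d → Cm 4 → (X (j + 1)).pt} {w₁ : Cm 4}
    {i₀ : ∀ e, (L (j + 1) e).ι}
    (hst : Stp (X (j + 1)) S V₁ Gc rr d lm θc ζ aa bb κc Nn sS σs φ w₁)
    (hVL : ∀ e, V₁ ⊆ (L (j + 1) e).U (i₀ e))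
    (hpl : ∀ k', PlW (O (j + 1)) (v' (j + 1)) (T (j + 1)) (Q' (j + 1)) ρ S G a ι (φ k') w₁)
    {k₀ : Fin d} {l : Fin r} {W₁ : Set (Cm 4)} {γ : Cm 4 → Y} {ch : Chart 4 Y}
    {μ : ∀ e, (M e).ι} {i : ∀ e, (L (j + 1) e).ι} {x : Fin (k + s) → ℚ} {r₁ b₀ : ℝ}
    (hgm : GermV (O (j + 1)) (v' (j + 1)) (T (j + 1)) S W₁ w₁ (φ k₀) γ ch μ i x 0)
    (hpar : IsPar (G l) γ w₁ r₁) (hord : OrdG G a γ w₁ b₀)
    (hlt : b₀ < ∑ e, ρ e / Q' (j + 1) e * x e) : G l ⊆ E := by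
  classical
  by_contra hGE
  obtain ⟨hEc, hEan⟩ := H615.WZ.wz_an hE
  have hcl := H29.E.sub_closure_an (h.res.hyp l) (h.res.conn l) hEc hEan hGE
  have hsum : ∑ e : Fin k, ρ (Fin.castAdd s e) * m (Fin.castAdd s e) = 1 := by
    have h1 := h.sum
    rw [Fin.sum_univ_add] at h1
    simpa only [h.m0, Nat.cast_zero, mul_zero, Finset.sum_const_zero, add_zero] using h1
  have hk : 1 ≤ k := by
    rcases Nat.eq_zero_or_pos k with rfl | h1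
    · simp at hsum
    · exact h1
  obtain ⟨q, N, I, τ, xx, hN, hx, hnef, hτ, hEτ, a₁, nn, ν, u, hθ, hρ, hxν⟩ := hE
  choose θ hθ hθ0 using hθ
  have hTw := hT.tw j
  have hR : ∀ e, CtBd (((Bd.can 4 Y).pow (m e)).mul (M e)) := fun e => ctBd (h.lb e) (m e)
  have hvc : Continuous fun y => p (v y) := h.res.cont.comp (continuousOn_univ.1 h.res.emb.cont)
  have hbl : Continuous bl := H19.continuous_bl
  have hw₁0 : w₁ 0 = 0 := hgm.zero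
  -- the lifts of all the sheets
  have hall : ∀ k', ∃ (Wk : Set (Cm 4)) (γk : Cm 4 → Y) (chk : Chart 4 Y), (k' = k₀ → γk = γ) ∧
      IsOpen Wk ∧ w₁ ∈ Wk ∧
      (∀ w ∈ Wk, ContinuousAt γk w ∧ At chk (γk w) ∧ AnalyticAt ℂ (fun w => chk (γk w)) w) ∧
      ∀ w ∈ Wk, φ k' w ∈ v' (j + 1) '' O (j + 1) → γk w ∈ O (j + 1) ∧
        v' (j + 1) (γk w) = φ k' w := by
    intro k'
    by_cases hk' : k' = k₀
    · subst hk'
      exact ⟨W₁, γ, ch, fun _ => rfl, hgm.isOpen, hgm.mem, hgm.lift, fun w hw hwO =>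
        ⟨hgm.lift1 w hw hwO, hgm.lift2 w hw (hgm.lift1 w hw hwO)⟩⟩
    · obtain ⟨l', W', γ', ch', μ', i', x', r', b', hg', -⟩ := hpl k'
      exact ⟨W', γ', ch', fun h1 => (hk' h1).elim, hg'.isOpen, hg'.mem, hg'.lift, fun w hw hwO =>
        ⟨hg'.lift1 w hw hwO, hg'.lift2 w hw (hg'.lift1 w hw hwO)⟩⟩
  choose Wk γk chk hγk hWk hwWk hliftk hliftk' using hall
  -- the frames
  choose α hα using fun e => (hT.tw0.lb e).cover (p (v (γ w₁)))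
  choose β hβ using fun b => (hN b).cover (γ w₁)
  obtain ⟨hγ1, hγ2, hγ3⟩ := hgm.lift w₁ hgm.mem
  obtain ⟨μ₀, hb, hot⟩ := H884.W.ord_t h.cmp hw₁0 hγ1 hγ2 hγ3 hord (a := α) hα
    (m := fun e => (ch, μ e)) fun e => ⟨hγ2, hgm.memN w₁ hgm.mem e⟩
  set D : Set (Cm 4) := {w | γ w ∈ O (j + 1)} with hD
  have hsub0 : O (j + 1) ⊆ O 0 := by
    rw [hT.O0]
    exact (hTw.tw ⟨0, by omega⟩).sub
  have hord' : ∀ z : Fin (k + s) ⊕ Fin (k + s), HasOrd D w₁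
      (Sum.elim (fun e w => T (j + 1) e (i e) (ch, μ e) (γ w))
        (fun e w => t e (α e) (ch, μ e) (γ w)) z)
      (Sum.elim x (fun e => ((∑ l, n e l * μ₀ l : ℤ) : ℚ)) z) := by
    rintro (e | e)
    · exact hgm.ord w₁ hgm.mem hw₁0 e
    · obtain ⟨K, ν', A', B', m1, m2, m3, m4, m5, m6, m7⟩ := hot e
      refine ⟨K, ν', A', B', m1, m2, m3, m4, m5, m6, m7.mono fun w hw hwD => hw ?_⟩
      have h1 := hsub0 hwD
      rw [hT.O0] at h1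
      exact h1
  -- the conditions near `w₁`
  have hcond : ∀ᶠ w in 𝓝 w₁, w ∈ W₁ ∧ (∀ k', w ∈ Wk k') ∧
      (∀ e, p (v (γ w)) ∈ (L 0 e).U (α e)) ∧ (∀ b, γ w ∈ (N b).U (β b)) ∧
      bl w ∈ ball (bl w₁) rr ∧ (∀ᶠ w' in 𝓝 w, w' 0 ≠ 0 → θc (bl w') ≠ 0) ∧
      (∀ k', ∀ᶠ w' in 𝓝 w, HolAt (X (j + 1)) (φ k') w' ∧ φ k' w' ∈ V₁ ∧
        Gc (φ k' w') = H371.pw (sS k') w') ∧
      ∀ᶠ w' in 𝓝 w, w' 0 ≠ 0 → TX.Enum V₁ Gc ![w' 0 ^ Nn, w' 1 * w' 0 ^ Nn, w' 2, w' 3]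
        (fun k' => φ k' ![w' 0 ^ (Nn / sS k'), w' 1, w' 2, w' 3]) := by
    refine Eventually.and (hgm.isOpen.mem_nhds hgm.mem) (Eventually.and ?_ (Eventually.and ?_
      (Eventually.and ?_ (Eventually.and ?_ (Eventually.and hst.θne.eventually_nhds
        (Eventually.and ?_ hst.enum.eventually_nhds))))))
    · rw [eventually_all]
      exact fun k' => (hWk k').mem_nhds (hwWk k')
    · rw [eventually_all]
      exact fun e => (hvc.continuousAt.comp hγ1).eventually_mem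
        (((hT.tw0.lb e).isOpen (α e)).mem_nhds (hα e))
    · rw [eventually_all]
      exact fun b => hγ1.eventually_mem (((hN b).isOpen _).mem_nhds (hβ b))
    · exact hbl.continuousAt.eventually_mem (isOpen_ball.mem_nhds (mem_ball_self hst.good.pos))
    · rw [eventually_all]
      exact fun k' => (hst.pui k').eventually_nhds
  have hordE : ∀ᶠ w in 𝓝 w₁, w 0 = 0 → ∀ z : Fin (k + s) ⊕ Fin (k + s), HasOrd D w
      (Sum.elim (fun e w => T (j + 1) e (i e) (ch, μ e) (γ w))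
        (fun e w => t e (α e) (ch, μ e) (γ w)) z)
      (Sum.elim x (fun e => ((∑ l, n e l * μ₀ l : ℤ) : ℚ)) z) := by
    have h1 : ∀ᶠ w in 𝓝 w₁, ∀ z : Fin (k + s) ⊕ Fin (k + s), w 0 = 0 → HasOrd D w
        (Sum.elim (fun e w => T (j + 1) e (i e) (ch, μ e) (γ w))
          (fun e w => t e (α e) (ch, μ e) (γ w)) z)
        (Sum.elim x (fun e => ((∑ l, n e l * μ₀ l : ℤ) : ℚ)) z) := by
      rw [eventually_all]
      exact fun z => (hord' z).eventually hw₁0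
    exact h1.mono fun w hw h0 z => hw z h0
  -- first move: a point outside `E`
  obtain ⟨w₂, hw₂0, hw₂c, hw₂o, hw₂E⟩ : ∃ w₂ : Cm 4, w₂ 0 = 0 ∧ (∀ᶠ w in 𝓝 w₂, w ∈ W₁ ∧
      (∀ k', w ∈ Wk k') ∧
      (∀ e, p (v (γ w)) ∈ (L 0 e).U (α e)) ∧ (∀ b, γ w ∈ (N b).U (β b)) ∧
      bl w ∈ ball (bl w₁) rr ∧ (∀ᶠ w' in 𝓝 w, w' 0 ≠ 0 → θc (bl w') ≠ 0) ∧
      (∀ k', ∀ᶠ w' in 𝓝 w, HolAt (X (j + 1)) (φ k') w' ∧ φ k' w' ∈ V₁ ∧
        Gc (φ k' w') = H371.pw (sS k') w') ∧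
      ∀ᶠ w' in 𝓝 w, w' 0 ≠ 0 → TX.Enum V₁ Gc ![w' 0 ^ Nn, w' 1 * w' 0 ^ Nn, w' 2, w' 3]
        (fun k' => φ k' ![w' 0 ^ (Nn / sS k'), w' 1, w' 2, w' 3])) ∧
      (∀ z : Fin (k + s) ⊕ Fin (k + s), HasOrd D w₂
        (Sum.elim (fun e w => T (j + 1) e (i e) (ch, μ e) (γ w))
          (fun e w => t e (α e) (ch, μ e) (γ w)) z)
        (Sum.elim x (fun e => ((∑ l, n e l * μ₀ l : ℤ) : ℚ)) z)) ∧ γ w₂ ∉ E := by
    obtain ⟨ε, hε, hball⟩ := Metric.eventually_nhds_iff_ball.1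
      ((hcond.eventually_nhds.and hordE).and (isOpen_ball.mem_nhds (mem_ball_self hpar.pos)))
    have hb1 : ball w₁ ε ⊆ ball w₁ r₁ := fun w hw => (hball w hw).2
    have h1 : IsOpen (γ '' ball w₁ ε) := hpar.openMap _ hb1 isOpen_ball
    have h2 : γ w₁ ∈ G l := (hpar.mem w₁ (mem_ball_self hpar.pos)).2 hpar.zero
    obtain ⟨_, ⟨w₂, hw₂, rfl⟩, h3, h4⟩ := mem_closure_iff.1 (hcl h2) _ h1
      ⟨w₁, mem_ball_self hε, rfl⟩
    have h5 : w₂ 0 = 0 := (hpar.mem w₂ (hb1 hw₂)).1 h3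
    exact ⟨w₂, h5, (hball w₂ hw₂).1.1, (hball w₂ hw₂).1.2 h5, h4⟩
  -- second move: a generic point
  have hγ₂' : ContinuousAt γ w₂ := (hgm.lift w₂ hw₂c.self_of_nhds.1).1
  obtain ⟨w₃, ⟨hw₃0, hun⟩, ⟨hw₃W, hw₃k, hw₃a, hw₃β, hw₃b, hw₃θ, hw₃φ, hw₃e⟩, hw₃E⟩ :=
    ((HasOrd.exists_unit hw₂0 hw₂o).and_eventually (hw₂c.and
      (hγ₂'.eventually_mem (hEc.isOpen_compl.mem_nhds hw₂E)))).exists
  have hγ₃ : ContinuousAt γ w₃ := (hgm.lift w₃ hw₃W).1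
  -- the orders
  have hLO : ∀ z : Fin (k + s) ⊕ Fin (k + s), LO D w₃ (fun w => lg
      (Sum.elim (fun e w => T (j + 1) e (i e) (ch, μ e) (γ w))
        (fun e w => t e (α e) (ch, μ e) (γ w)) z w))
      (2 * ((Sum.elim x (fun e => ((∑ l, n e l * μ₀ l : ℤ) : ℚ)) z : ℚ) : ℝ)) := by
    intro z
    obtain ⟨K, ν', Φ, m1, m2, m3, m4, m5⟩ := hun z
    exact LO.of_unit m1 m2 m3 m4 m5
  have hφ₃ : HolAt (X (j + 1)) (φ k₀) w₃ := (hw₃φ k₀).self_of_nhds.1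
  have hφV : φ k₀ w₃ ∈ V₁ := (hw₃φ k₀).self_of_nhds.2.1
  -- the frames `i₀`
  have hLO₀ : ∀ e, LO D w₃ (fun w => lg (T (j + 1) e (i₀ e) (ch, μ e) (γ w)))
      (2 * ((x e : ℚ) : ℝ)) := by
    intro e
    have hUi : φ k₀ w₃ ∈ (L (j + 1) e).U (i e) := hgm.memU w₃ hw₃W e
    have hg := (hTw.lb e).holo (i e) (i₀ e) _ hUi (hVL e hφV)
    have hgc : ContinuousAt (fun w => (L (j + 1) e).g (i e) (i₀ e) (φ k₀ w)) w₃ :=
      (hφ₃.2 _ hg).continuousAt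
    have hg0 : (L (j + 1) e).g (i e) (i₀ e) (φ k₀ w₃) ≠ 0 :=
      (hTw.lb e).ne_zero _ _ _ hUi (hVL e hφV)
    have hR₃ : γ w₃ ∈ (((Bd.can 4 Y).pow (m e)).mul (M e)).U (ch, μ e) :=
      ⟨(hgm.lift w₃ hw₃W).2.1, hgm.memN w₃ hw₃W e⟩
    have hRc : ContinuousAt (fun w =>
        (((Bd.can 4 Y).pow (m e)).mul (M e)).g (ch, μ e) (ch, μ e) (γ w)) w₃ :=
      ((hR e).cont _ _ _ hR₃ hR₃).comp hγ₃
    have h1 : LO D w₃ (fun w => (P' (j + 1) e : ℝ) *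
        lg ((L (j + 1) e).g (i e) (i₀ e) (φ k₀ w)) + (Q' (j + 1) e : ℝ) *
        lg ((((Bd.can 4 Y).pow (m e)).mul (M e)).g (ch, μ e) (ch, μ e) (γ w))) 0 := by
      refine LO.of_cont ((continuousAt_const.mul ?_).add (continuousAt_const.mul ?_))
      · exact (hgc.norm.pow 2).log (pow_ne_zero _ (norm_ne_zero_iff.2 hg0))
      · exact (hRc.norm.pow 2).log
          (pow_ne_zero _ (norm_ne_zero_iff.2 ((hR e).ne_zero _ _ _ hR₃ hR₃)))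
    have h2 := h1.add (hLO (Sum.inl e))
    rw [zero_add] at h2
    refine h2.congr ?_
    filter_upwards [hgm.isOpen.mem_nhds hw₃W, hw₃φ k₀] with w h3 h4 hwD _
    have h5 : v' (j + 1) (γ w) = φ k₀ w := hgm.lift2 w h3 hwD
    have h6 : v' (j + 1) (γ w) ∈ (L (j + 1) e).U (i e) := by rw [h5]; exact hgm.memU w h3 e
    have h7 : v' (j + 1) (γ w) ∈ (L (j + 1) e).U (i₀ e) := by rw [h5]; exact hVL e h4.2.1
    have h8 : γ w ∈ (((Bd.can 4 Y).pow (m e)).mul (M e)).U (ch, μ e) :=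
      ⟨(hgm.lift w h3).2.1, hgm.memN w h3 e⟩
    have h9 := (hTw.tw e).iso.change (γ w) hwD (i e) (i₀ e) (ch, μ e) (ch, μ e) h6 h7 h8 h8
    have h10 : T (j + 1) e (i e) (ch, μ e) (γ w) ≠ 0 :=
      ((hTw.tw e).iso.holo (γ w) hwD (i e) (ch, μ e) _ (H19.at_chartAt _) h6 h8).2
    have h11 : (L (j + 1) e).g (i e) (i₀ e) (v' (j + 1) (γ w)) ≠ 0 :=
      (hTw.lb e).ne_zero _ _ _ h6 h7
    have h12 : (((Bd.can 4 Y).pow (m e)).mul (M e)).g (ch, μ e) (ch, μ e) (γ w) ≠ 0 :=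
      (hR e).ne_zero _ _ _ h8 h8
    have h13 : (((L (j + 1) e).pow (P' (j + 1) e)).g (i e) (i₀ e) (v' (j + 1) (γ w))) =
      (L (j + 1) e).g (i e) (i₀ e) (v' (j + 1) (γ w)) ^ P' (j + 1) e := rfl
    have h14 : (((((Bd.can 4 Y).pow (m e)).mul (M e)).pow (Q' (j + 1) e)).g (ch, μ e) (ch, μ e)
        (γ w)) = (((Bd.can 4 Y).pow (m e)).mul (M e)).g (ch, μ e) (ch, μ e) (γ w) ^
          Q' (j + 1) e := rfl
    rw [h14, h13] at h9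
    show lg (T (j + 1) e (i₀ e) (ch, μ e) (γ w)) = _ + lg (T (j + 1) e (i e) (ch, μ e) (γ w))
    rw [h9, lg_mul (mul_ne_zero (pow_ne_zero _ h11) h10) (pow_ne_zero _ h12),
      lg_mul (pow_ne_zero _ h11) h10, lg_pow, lg_pow, h5]
    ring
  have hQ0 : ∀ e, Q' 0 e = c 0 e := fun e => by rw [hT.Q0]
  have hκ : 0 < 2 * ((∑ e, ρ e / Q' (j + 1) e * (x e : ℝ)) - b₀) := by linarith
  refine H884.S.core_cov (γ := γk) (ch := chk) h.kahler (hTw.tw ⟨0, by omega⟩).emb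
    (hTw.tw ⟨0, by omega⟩).dim hst.good.toIsCov hw₃0 hw₃b hw₃θ hst.N1
    (fun k' => ⟨(hst.s1 k').1, (hst.s1 k').2.2⟩)
    (fun k' => (hw₃φ k').mono fun w hw => ⟨hw.1.1, hw.2⟩) hw₃e
    (fun k' => (hliftk k' w₃ (hw₃k k')).1) (fun k' => (hliftk k' w₃ (hw₃k k')).2.1)
    (fun k' => (hliftk k' w₃ (hw₃k k')).2.2) (fun k' => ?_) hκ k₀ fun δ hδ => ?_
  · filter_upwards [(hWk k').mem_nhds (hw₃k k')] with w hw hwO
    exact hliftk' k' w hw hwO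
  obtain ⟨ψ, wt, hφ1, hwt, hφ2⟩ := exists_phi h.kahler (v₀ := fun y => p (v y)) (v := v' (j + 1))
    (R := fun e => ((Bd.can 4 Y).pow (m e)).mul (M e)) (c := c 0) (P₀ := P' 0) (Q₀ := Q' 0)
    (P := P' (j + 1)) (Q := Q' (j + 1)) (O₀ := O 0) (O := O (j + 1)) (T₀ := T 0)
    (T := T (j + 1)) (fun e => hT.tw0.lb e) (fun e => hTw.lb e) (fun e => (hR e).isOpen)
    (fun e => (hR e).cover) (fun e => (hR e).ne_zero)
    (fun e => by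
      have h1 := (hT.tw0.tw e).iso
      rw [hT.v0] at h1
      exact h1)
    (fun e => (hTw.tw e).iso) (fun e => h.c1 0 e) (fun e => hT.tw0.mult e)
    (fun e => (hT.tw0.tw e).hQ) (fun e => (hTw.tw e).hQ) hvc (hTw.tw ⟨0, by omega⟩).emb.isOpen
    hsub0 (hTw.tw ⟨0, by omega⟩).emb.cont hN hx hnef hτ hEτ hθ hθ0 hρ hxν i₀ hδ
  refine ⟨ψ, fun y hy hyv => hφ1 y hy fun e => hVL e hyv, ?_⟩
  obtain ⟨C, hC⟩ := lo_ph (x := xx) (u := u) (ρ := ρ) (Q₀ := Q' 0) (Q := Q' (j + 1)) (T₀ := T 0)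
    (T := T (j + 1)) (w := wt) (D := D) (R := fun e => ((Bd.can 4 Y).pow (m e)).mul (M e))
    (i := i₀) (n := fun e => (ch, μ e)) hθ hθ0 hγ₃ hw₃a hw₃β
    (fun b => hwt b _ hw₃E _ (hw₃β b)) (q₀ := fun e => ((∑ l, n e l * μ₀ l : ℤ) : ℚ)) (q₁ := x)
    (fun e => by
      have h1 := hLO (Sum.inr e)
      rw [hT.T0]
      exact h1) hLO₀
  refine ⟨C + 1, ?_⟩
  have hev₂ : ∀ᶠ w in 𝓝 w₃, w ∈ W₁ ∧ γ w ∉ E ∧ (∀ e, p (v (γ w)) ∈ (L 0 e).U (α e)) ∧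
      (∀ b, γ w ∈ (N b).U (β b)) ∧ φ k₀ w ∈ V₁ := by
    refine Eventually.and (hgm.isOpen.mem_nhds hw₃W) (Eventually.and ?_ (Eventually.and ?_
      (Eventually.and ?_ ((hw₃φ k₀).mono fun w hw => hw.2.1))))
    · exact hγ₃.eventually_mem (hEc.isOpen_compl.mem_nhds hw₃E)
    · rw [eventually_all]
      exact fun e => (hvc.continuousAt.comp hγ₃).eventually_mem
        (((hT.tw0.lb e).isOpen (α e)).mem_nhds (hw₃a e))
    · rw [eventually_all]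
      exact fun b => hγ₃.eventually_mem (((hN b).isOpen _).mem_nhds (hw₃β b))
  rw [hγk k₀ rfl]
  filter_upwards [hC, hev₂] with w h1 ⟨h2, h3, h4, h5, h5'⟩ hw0 hwO
  have h6 : v' (j + 1) (γ w) = φ k₀ w := hgm.lift2 w h2 hwO
  have h7 := hφ2 (γ w) hwO h3 (fun e => by rw [h6]; exact hVL e h5') α β (fun e => (ch, μ e)) h4 h5
    fun e => ⟨(hgm.lift w h2).2.1, hgm.memN w h2 e⟩
  have h8 := h1 hwO hw0
  have h9 : (∑ e, ρ e / Q' 0 e * (2 * (((∑ l, n e l * μ₀ l : ℤ) : ℚ) : ℝ))) = 2 * b₀ := by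
    rw [hb, Finset.mul_sum]
    have h10 : ∀ e, ρ e / Q' 0 e * (2 * (((∑ l, n e l * μ₀ l : ℤ) : ℚ) : ℝ)) =
        ∑ l, 2 * (ρ e * n e l / c 0 e * μ₀ l) := by
      intro e
      rw [hQ0]
      push_cast
      rw [Finset.mul_sum, Finset.mul_sum]
      exact Finset.sum_congr rfl fun l _ => by ring
    rw [Finset.sum_congr rfl fun e _ => h10 e, Finset.sum_comm]
    refine Finset.sum_congr rfl fun l _ => ?_
    rw [haG l, Finset.sum_mul, Finset.mul_sum]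
  have h11 : (∑ e, ρ e / Q' (j + 1) e * (2 * (x e : ℝ))) =
      2 * ∑ e, ρ e / Q' (j + 1) e * (x e : ℝ) := by
    rw [Finset.mul_sum]
    exact Finset.sum_congr rfl fun e _ => by ring
  rw [h9, h11, abs_le] at h8
  rw [h7]
  refine le_trans ?_ (hc_lower _)
  rw [one_div, Real.log_inv]
  have h12 := h8.1
  nlinarith

end

end Vale.Agent.P277.H29.W
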