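import Vale.Agent.P277.H29.W.Lg

/-!
# P277, (WZD): the weight of `P + N` with respect to the frames of the line bundles on `X (j + 1)`
-/

open scoped Manifold ContDiff ComplexOrder Topology
open Vale.Agent.P272.K Vale.Agent.P285.H281.FD Set Filter

noncomputable section

namespace Vale.Agent.P277.H29.W

open Vale.Agent.P277 Vale.Agent.P277.H19

section

variable {Y : Type} [TopologicalSpace Y] [ChartedSpace (Cm 4) Y] {X₀ X : CSp} {K q A : ℕ}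
  {v₀ : Y → X₀.pt} {v : Y → X.pt} {L₀ : Fin K → Bd X₀.pt} {L : Fin K → Bd X.pt}
  {R : Fin K → Bd Y} {c P₀ Q₀ P Q : Fin K → ℕ} {O₀ O E : Set Y}
  {T₀ : ∀ e, (L₀ e).ι → (R e).ι → Y → ℂ} {T : ∀ e, (L e).ι → (R e).ι → Y → ℂ}
  {N : Fin q → Bd Y} {x : Fin q → ℝ} {nn : Fin A → Fin K → ℤ} {ν : Fin A → Fin q → ℤ}
  {u : Fin A → ℝ} {θ : Fin A → ((∀ e, (L₀ e).ι) × ∀ b, (N b).ι) → Y → ℂ}
  {w : ∀ b, (N b).ι → Y → ℝ} {ρ : Fin K → ℝ}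

/-- the weight of `P + N` -/
def Ph (x : Fin q → ℝ) (w : ∀ b, (N b).ι → Y → ℝ) (u : Fin A → ℝ)
    (θ : Fin A → ((∀ e, (L₀ e).ι) × ∀ b, (N b).ι) → Y → ℂ) (ρ : Fin K → ℝ) (Q₀ Q : Fin K → ℕ)
    (T₀ : ∀ e, (L₀ e).ι → (R e).ι → Y → ℂ) (T : ∀ e, (L e).ι → (R e).ι → Y → ℂ)
    (i : ∀ e, (L e).ι) (a : ∀ e, (L₀ e).ι) (β : ∀ b, (N b).ι) (n : ∀ e, (R e).ι) (y : Y) : ℝ :=
  ((∑ b, x b * w b (β b) y) + ∑ l, u l * lg (θ l (a, β) y)) +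
    ((∑ e, ρ e / Q₀ e * lg (T₀ e (a e) (n e) y)) - ∑ e, ρ e / Q e * lg (T e (i e) (n e) y))

/-- the weight does not depend on the frames -/
theorem ph_indep (hL₀ : ∀ e, IsLBx X₀ (L₀ e)) (hL : ∀ e, IsLBx X (L e))
    (hRne : ∀ e i j y, y ∈ (R e).U i → y ∈ (R e).U j → (R e).g i j y ≠ 0)
    (hN : ∀ b, IsLB 4 (N b))
    (hT₀ : ∀ e, IsIsoY O₀ v₀ ((L₀ e).pow (P₀ e)) ((R e).pow (Q₀ e)) (T₀ e))
    (hT : ∀ e, IsIsoY O v ((L e).pow (P e)) ((R e).pow (Q e)) (T e))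
    (hc : ∀ e, 1 ≤ c e) (hm : ∀ e, c e * P₀ e = Q₀ e) (hQ₀ : ∀ e, 1 ≤ Q₀ e)
    (hQ : ∀ e, 1 ≤ Q e)
    (hθ : ∀ l, IsSec 4 ((Bd.lin (fun e => Bd.pull v₀ (L₀ e)) (nn l)).mul (Bd.lin N (ν l))) (θ l))
    (hθ0 : ∀ l y, NZ ((Bd.lin (fun e => Bd.pull v₀ (L₀ e)) (nn l)).mul (Bd.lin N (ν l))) (θ l) y)
    (hρ : ∀ e, ρ e = ∑ l, u l * (nn l e * c e)) (hx : ∀ b, -x b = ∑ l, u l * ν l b)
    {y : Y} (hw : ∀ b i j, y ∈ (N b).U i → y ∈ (N b).U j →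
      w b i y = w b j y + lg ((N b).g i j y))
    (hy₀ : y ∈ O₀) (hy : y ∈ O) {i : ∀ e, (L e).ι} (hi : ∀ e, v y ∈ (L e).U (i e))
    {a a' : ∀ e, (L₀ e).ι} (ha : ∀ e, v₀ y ∈ (L₀ e).U (a e)) (ha' : ∀ e, v₀ y ∈ (L₀ e).U (a' e))
    {β β' : ∀ b, (N b).ι} (hβ : ∀ b, y ∈ (N b).U (β b)) (hβ' : ∀ b, y ∈ (N b).U (β' b))
    {n n' : ∀ e, (R e).ι} (hn : ∀ e, y ∈ (R e).U (n e)) (hn' : ∀ e, y ∈ (R e).U (n' e)) :
    Ph x w u θ ρ Q₀ Q T₀ T i a β n y = Ph x w u θ ρ Q₀ Q T₀ T i a' β' n' y := by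
  have hg0 : ∀ e, (L₀ e).g (a e) (a' e) (v₀ y) ≠ 0 := fun e => (hL₀ e).ne_zero _ _ _ (ha e) (ha' e)
  have hN0 : ∀ b, (N b).g (β b) (β' b) y ≠ 0 := fun b => (hN b).ne_zero _ _ _ (hβ b) (hβ' b)
  have hR0 : ∀ e, (R e).g (n e) (n' e) y ≠ 0 := fun e => hRne _ _ _ _ (hn e) (hn' e)
  have h1 : ∀ b, x b * w b (β b) y = x b * w b (β' b) y +
      x b * lg ((N b).g (β b) (β' b) y) := by
    intro b
    rw [hw b _ _ (hβ b) (hβ' b)]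
    ring
  have h2 : ∀ l, u l * lg (θ l (a, β) y) = u l * lg (θ l (a', β') y) +
      ((∑ e, u l * nn l e * lg ((L₀ e).g (a e) (a' e) (v₀ y))) +
        ∑ b, u l * ν l b * lg ((N b).g (β b) (β' b) y)) := by
    intro l
    have h3 : θ l (a, β) y = ((∏ e, (L₀ e).g (a e) (a' e) (v₀ y) ^ nn l e) *
        ∏ b, (N b).g (β b) (β' b) y ^ ν l b) * θ l (a', β') y :=
      (hθ l).change (a, β) (a', β') y ⟨ha, hβ⟩ ⟨ha', hβ'⟩
    have h4 : θ l (a', β') y ≠ 0 := hθ0 l y (a', β') ⟨ha', hβ'⟩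
    have h6 : (∏ e, (L₀ e).g (a e) (a' e) (v₀ y) ^ nn l e) ≠ 0 :=
      Finset.prod_ne_zero_iff.2 fun e _ => zpow_ne_zero _ (hg0 e)
    have h7 : (∏ b, (N b).g (β b) (β' b) y ^ ν l b) ≠ 0 :=
      Finset.prod_ne_zero_iff.2 fun b _ => zpow_ne_zero _ (hN0 b)
    rw [h3, lg_mul (mul_ne_zero h6 h7) h4, lg_mul h6 h7,
      lg_prod _ fun e _ => zpow_ne_zero _ (hg0 e), lg_prod _ fun b _ => zpow_ne_zero _ (hN0 b)]
    simp only [lg_zpow, mul_add, Finset.mul_sum, mul_assoc]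
    ring
  have h3 : ∀ e, ρ e / Q₀ e * lg (T₀ e (a e) (n e) y) = ρ e / Q₀ e * lg (T₀ e (a' e) (n' e) y) +
      (ρ e * lg ((R e).g (n e) (n' e) y) - ρ e / c e * lg ((L₀ e).g (a e) (a' e) (v₀ y))) := by
    intro e
    have h4 := (hT₀ e).change y hy₀ (a' e) (a e) (n' e) (n e) (ha' e) (ha e) (hn' e) (hn e)
    have h5 : T₀ e (a' e) (n' e) y ≠ 0 :=
      ((hT₀ e).holo y hy₀ (a' e) (n' e) _ (H19.at_chartAt y) (ha' e) (hn' e)).2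
    have h6 : (L₀ e).g (a' e) (a e) (v₀ y) ≠ 0 := (hL₀ e).ne_zero _ _ _ (ha' e) (ha e)
    have h7 : (L₀ e).g (a' e) (a e) (v₀ y) * (L₀ e).g (a e) (a' e) (v₀ y) = 1 := by
      rw [(hL₀ e).cocycle _ _ _ _ (ha' e) (ha e) (ha' e)]
      have h8 := (hL₀ e).cocycle _ _ _ _ (ha' e) (ha' e) (ha' e)
      exact (mul_eq_left₀ ((hL₀ e).ne_zero _ _ _ (ha' e) (ha' e))).1 h8
    have h8 : lg ((L₀ e).g (a' e) (a e) (v₀ y)) = - lg ((L₀ e).g (a e) (a' e) (v₀ y)) := by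
      have h9 := congrArg lg h7
      rw [lg_mul h6 (hg0 e), lg_one] at h9
      linarith
    have h9 : ((L₀ e).pow (P₀ e)).g (a' e) (a e) (v₀ y) =
      (L₀ e).g (a' e) (a e) (v₀ y) ^ P₀ e := rfl
    have h10 : ((R e).pow (Q₀ e)).g (n e) (n' e) y = (R e).g (n e) (n' e) y ^ Q₀ e := rfl
    rw [h4, h9, h10, lg_mul (mul_ne_zero (pow_ne_zero _ h6) h5) (pow_ne_zero _ (hR0 e)),
      lg_mul (pow_ne_zero _ h6) h5, lg_pow, lg_pow, h8]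
    have h11 : (Q₀ e : ℝ) ≠ 0 := by have := hQ₀ e; positivity
    have h12 : (c e : ℝ) ≠ 0 := by have := hc e; positivity
    have h13 : (c e : ℝ) * P₀ e = Q₀ e := by exact_mod_cast hm e
    have h14 : ρ e / Q₀ e * P₀ e = ρ e / c e := by
      rw [div_mul_eq_mul_div, div_eq_div_iff h11 h12, ← h13]
      ring
    have h15 : ρ e / Q₀ e * Q₀ e = ρ e := div_mul_cancel₀ _ h11
    calc _ = ρ e / Q₀ e * lg (T₀ e (a' e) (n' e) y) +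
        (ρ e / Q₀ e * Q₀ e * lg ((R e).g (n e) (n' e) y) -
          ρ e / Q₀ e * P₀ e * lg ((L₀ e).g (a e) (a' e) (v₀ y))) := by ring
      _ = _ := by rw [h14, h15]
  have h4 : ∀ e, ρ e / Q e * lg (T e (i e) (n e) y) = ρ e / Q e * lg (T e (i e) (n' e) y) +
      ρ e * lg ((R e).g (n e) (n' e) y) := by
    intro e
    have h4 := (hT e).change y hy (i e) (i e) (n' e) (n e) (hi e) (hi e) (hn' e) (hn e)
    have h5 : T e (i e) (n' e) y ≠ 0 :=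
      ((hT e).holo y hy (i e) (n' e) _ (H19.at_chartAt y) (hi e) (hn' e)).2
    have h7 : (L e).g (i e) (i e) (v y) = 1 :=
      (mul_eq_left₀ ((hL e).ne_zero _ _ _ (hi e) (hi e))).1
        ((hL e).cocycle _ _ _ _ (hi e) (hi e) (hi e))
    have h9 : ((L e).pow (P e)).g (i e) (i e) (v y) = (L e).g (i e) (i e) (v y) ^ P e := rfl
    have h10 : ((R e).pow (Q e)).g (n e) (n' e) y = (R e).g (n e) (n' e) y ^ Q e := rfl
    rw [h4, h9, h10, h7, one_pow, one_mul, lg_mul h5 (pow_ne_zero _ (hR0 e)), lg_pow]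
    have h11 : (Q e : ℝ) ≠ 0 := by have := hQ e; positivity
    have h15 : ρ e / Q e * Q e = ρ e := div_mul_cancel₀ _ h11
    calc _ = ρ e / Q e * lg (T e (i e) (n' e) y) +
        ρ e / Q e * Q e * lg ((R e).g (n e) (n' e) y) := by ring
      _ = _ := by rw [h15]
  have h5 : ∑ l, ∑ b, u l * ν l b * lg ((N b).g (β b) (β' b) y) =
      - ∑ b, x b * lg ((N b).g (β b) (β' b) y) := by
    rw [Finset.sum_comm, ← Finset.sum_neg_distrib]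
    refine Finset.sum_congr rfl fun b _ => ?_
    rw [← Finset.sum_mul, ← hx b]
    ring
  have h6 : ∑ l, ∑ e, u l * nn l e * lg ((L₀ e).g (a e) (a' e) (v₀ y)) =
      ∑ e, ρ e / c e * lg ((L₀ e).g (a e) (a' e) (v₀ y)) := by
    rw [Finset.sum_comm]
    refine Finset.sum_congr rfl fun e _ => ?_
    rw [← Finset.sum_mul]
    congr 1
    have h12 : (c e : ℝ) ≠ 0 := by have := hc e; positivity
    rw [eq_div_iff h12, hρ e, Finset.sum_mul]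
    exact Finset.sum_congr rfl fun l _ => by ring
  unfold Ph
  rw [Finset.sum_congr rfl fun b _ => h1 b, Finset.sum_congr rfl fun l _ => h2 l,
    Finset.sum_congr rfl fun e _ => h3 e, Finset.sum_congr rfl fun e _ => h4 e]
  simp only [Finset.sum_add_distrib, Finset.sum_sub_distrib]
  rw [h5, h6]
  ring

/-- the weight is almost psh -/
theorem ph_psh {χ : Chart 4 Y → Cm 4 → Matrix (Fin 4) (Fin 4) ℂ}
    (hT₀ : ∀ e, IsIsoY O₀ v₀ ((L₀ e).pow (P₀ e)) ((R e).pow (Q₀ e)) (T₀ e))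
    (hT : ∀ e, IsIsoY O v ((L e).pow (P e)) ((R e).pow (Q e)) (T e))
    (hθ : ∀ l, IsSec 4 ((Bd.lin (fun e => Bd.pull v₀ (L₀ e)) (nn l)).mul (Bd.lin N (ν l))) (θ l))
    (hθ0 : ∀ l y, NZ ((Bd.lin (fun e => Bd.pull v₀ (L₀ e)) (nn l)).mul (Bd.lin N (ν l))) (θ l) y)
    (hx : ∀ b, 0 ≤ x b) {δ : ℝ}
    {y : Y} {ch : Chart 4 Y} (hch : At ch y)
    (hw : ∀ b i, y ∈ (N b).U i → ContDiffAt ℝ 2 (fun z => w b i (ch.symm z)) (ch y) ∧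
      (cHess (fun z => w b i (ch.symm z)) (ch y) + (δ : ℂ) • χ ch (ch y)).PosSemidef)
    (hy₀ : y ∈ O₀) (hy : y ∈ O) {i : ∀ e, (L e).ι} (hi : ∀ e, v y ∈ (L e).U (i e))
    {a : ∀ e, (L₀ e).ι} (ha : ∀ e, v₀ y ∈ (L₀ e).U (a e))
    {β : ∀ b, (N b).ι} (hβ : ∀ b, y ∈ (N b).U (β b))
    {n : ∀ e, (R e).ι} (hn : ∀ e, y ∈ (R e).U (n e)) :
    ContDiffAt ℝ 2 (fun z => Ph x w u θ ρ Q₀ Q T₀ T i a β n (ch.symm z)) (ch y) ∧
      (cHess (fun z => Ph x w u θ ρ Q₀ Q T₀ T i a β n (ch.symm z)) (ch y) +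
        (((∑ b, x b) * δ : ℝ) : ℂ) • χ ch (ch y)).PosSemidef := by
  have hs : ch.symm (ch y) = y := ch.left_inv hch.2
  have h1 := sum_psh Finset.univ (f := fun b z => w b (β b) (ch.symm z)) (c := x) (z := ch y)
    (δ := δ) (A := χ ch (ch y)) (fun b _ => hx b) fun b _ => hw b (β b) (hβ b)
  have h2 := sum_ph Finset.univ (f := fun l z => lg (θ l (a, β) (ch.symm z))) (c := u)
    (z := ch y) fun l _ => lg_c2 ((hθ l).holo (a, β) ch y hch ⟨ha, hβ⟩)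
      (by rw [hs]; exact hθ0 l y (a, β) ⟨ha, hβ⟩)
  have h3 := sum_ph Finset.univ (f := fun e z => lg (T₀ e (a e) (n e) (ch.symm z)))
    (c := fun e => ρ e / Q₀ e) (z := ch y) fun e _ => lg_c2
      ((hT₀ e).holo y hy₀ (a e) (n e) ch hch (ha e) (hn e)).1.contDiffAt
      (by rw [hs]; exact ((hT₀ e).holo y hy₀ (a e) (n e) ch hch (ha e) (hn e)).2)
  have h4 := sum_ph Finset.univ (f := fun e z => lg (T e (i e) (n e) (ch.symm z)))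
    (c := fun e => ρ e / Q e) (z := ch y) fun e _ => lg_c2
      ((hT e).holo y hy (i e) (n e) ch hch (hi e) (hn e)).1.contDiffAt
      (by rw [hs]; exact ((hT e).holo y hy (i e) (n e) ch hch (hi e) (hn e)).2)
  refine ⟨(h1.1.add h2.1).add (h3.1.sub h4.1), ?_⟩
  have h5 : cHess (fun z => Ph x w u θ ρ Q₀ Q T₀ T i a β n (ch.symm z)) (ch y) =
      cHess (fun z => ∑ b, x b * w b (β b) (ch.symm z)) (ch y) := by
    unfold Ph
    rw [cHess_add (h1.1.add h2.1) (h3.1.sub h4.1), cHess_add h1.1 h2.1, cHess_sub h3.1 h4.1,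
      h2.2, h3.2, h4.2]
    simp
  rw [h5]
  exact h1.2

end

end Vale.Agent.P277.H29.W
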